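import Vale.Agent.P247.H620.LConf
import Vale.Agent.P247.H324.MG.Belt2

/-!
# P247, LSX: `CONF_statement` from the Beltrami theorem of helper324
-/

open scoped ContDiff Topology
open Set MeasureTheory Filter Metric

noncomputable section

namespace Vale.Agent.P247.H620

open Vale.Agent.P247.H74 Vale.Agent.P247.H574 Vale.Agent.P247.H324

theorem hold_of_deriv {μ : ℂ → ℂ} {r C g : ℝ} (hC : 0 ≤ C) (hg : 0 < g) (hg1 : g < 1)
    (hμ : DifferentiableOn ℝ μ (ball 0 r \ {0}))
    (hb : ∀ s ∈ ball (0 : ℂ) r \ {0}, ‖μ s‖ ≤ C * ‖s‖ ^ g ∧ ‖fderiv ℝ μ s‖ ≤ C * ‖s‖ ^ (g - 1))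
    (h0 : μ 0 = 0) :
    ∀ x ∈ ball (0 : ℂ) r, ∀ y ∈ ball (0 : ℂ) r, ‖μ x - μ y‖ ≤ 5 * C * ‖x - y‖ ^ g := by
  intro x hx y hy
  have hbd : ∀ s ∈ ball (0 : ℂ) r, ‖μ s‖ ≤ C * ‖s‖ ^ g := by
    intro s hs
    by_cases h : s = 0
    · rw [h, h0, norm_zero]; positivity
    · exact (hb s ⟨hs, h⟩).1
  rcases le_or_gt ‖x‖ (2 * ‖x - y‖) with h | h
  · have h1 : ‖y‖ ≤ 3 * ‖x - y‖ := by
      have := norm_sub_norm_le y x
      rw [norm_sub_rev] at this
      linarith
    have h2 : ∀ (c : ℝ), 1 ≤ c → ∀ s : ℂ, ‖s‖ ≤ c * ‖x - y‖ → ‖s‖ ^ g ≤ c * ‖x - y‖ ^ g := by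
      intro c hc s hs
      calc ‖s‖ ^ g ≤ (c * ‖x - y‖) ^ g := Real.rpow_le_rpow (norm_nonneg _) hs hg.le
        _ = c ^ g * ‖x - y‖ ^ g := Real.mul_rpow (by linarith) (norm_nonneg _)
        _ ≤ c * ‖x - y‖ ^ g := by
            refine mul_le_mul_of_nonneg_right ?_ (by positivity)
            have := Real.rpow_le_rpow_of_exponent_le hc hg1.le
            rwa [Real.rpow_one] at this
    calc ‖μ x - μ y‖ ≤ ‖μ x‖ + ‖μ y‖ := norm_sub_le _ _
      _ ≤ C * ‖x‖ ^ g + C * ‖y‖ ^ g := add_le_add (hbd x hx) (hbd y hy)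
      _ ≤ C * (2 * ‖x - y‖ ^ g) + C * (3 * ‖x - y‖ ^ g) := by
          have e1 := h2 2 (by norm_num) x h
          have e2 := h2 3 (by norm_num) y h1
          gcongr
      _ = 5 * C * ‖x - y‖ ^ g := by ring
  · rcases eq_or_ne x y with hxy | hxy
    · rw [hxy, sub_self, norm_zero]; positivity
    have hn : 0 < ‖x - y‖ := norm_pos_iff.2 (sub_ne_zero.2 hxy)
    have hseg : ∀ z ∈ segment ℝ x y, z ∈ ball (0 : ℂ) r \ {0} ∧ ‖x - y‖ ≤ ‖z‖ := by
      intro z hz
      have h1 : z ∈ ball (0 : ℂ) r := (convex_ball _ _).segment_subset hx hy hz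
      have h2 : ‖z - x‖ ≤ ‖x - y‖ := by
        have := norm_sub_le_of_mem_segment hz
        rwa [norm_sub_rev x y]
      have h3 : ‖x - y‖ ≤ ‖z‖ := by
        have := norm_sub_norm_le x z
        rw [norm_sub_rev] at this
        linarith
      refine ⟨⟨h1, ?_⟩, h3⟩
      rintro rfl
      rw [norm_zero] at h3
      linarith
    have h1 := (convex_segment x y).norm_image_sub_le_of_norm_hasFDerivWithin_le (𝕜 := ℝ)
      (f := μ) (f' := fderiv ℝ μ) (C := C * ‖x - y‖ ^ (g - 1)) (fun z hz => by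
        have ho : IsOpen (ball (0 : ℂ) r \ {0}) := isOpen_ball.sdiff isClosed_singleton
        exact ((hμ.differentiableAt (ho.mem_nhds (hseg z hz).1)).hasFDerivAt).hasFDerivWithinAt)
      (fun z hz => by
        refine (hb z (hseg z hz).1).2.trans (mul_le_mul_of_nonneg_left ?_ hC)
        exact Real.rpow_le_rpow_of_nonpos hn (hseg z hz).2 (by linarith))
      (left_mem_segment ℝ x y) (right_mem_segment ℝ x y)
    rw [norm_sub_rev (μ y), norm_sub_rev y] at h1
    have e : ‖x - y‖ ^ (g - 1) * ‖x - y‖ = ‖x - y‖ ^ g := by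
      rw [← Real.rpow_add_one hn.ne', sub_add_cancel]
    rw [mul_assoc, e] at h1
    have : 0 ≤ C * ‖x - y‖ ^ g := by positivity
    linarith

theorem det_pz (L : ℂ →L[ℝ] ℂ) : L.det = ‖pz L‖ ^ 2 - ‖pzb L‖ ^ 2 := by
  rw [det_C, ← Complex.normSq_eq_norm_sq, ← Complex.normSq_eq_norm_sq, pz, pzb]
  simp only [Complex.normSq_apply, smul_eq_mul, Complex.mul_re, Complex.mul_im, Complex.sub_re,
    Complex.sub_im, Complex.add_re, Complex.add_im, Complex.I_re, Complex.I_im]
  norm_num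
  ring

theorem CONF : CONF_statement := by
  intro μ r C g hr hg hg1 hμ hb
  set α := min g (1 / 2) with hα
  have hα0 : 0 < α := lt_min hg (by norm_num)
  have hα1 : α < 1 := (min_le_right _ _).trans_lt (by norm_num)
  have hαg : α ≤ g := min_le_left _ _
  set r0 := min r 1 with hr0
  have hr00 : 0 < r0 := lt_min hr one_pos
  set μ' : ℂ → ℂ := fun s => if s = 0 then 0 else μ s with hμ'
  have hsub : ball (0 : ℂ) r0 \ {0} ⊆ ball 0 r \ {0} :=
    sdiff_subset_sdiff_left (ball_subset_ball (min_le_left _ _))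
  have hev : ∀ s : ℂ, s ≠ 0 → μ' =ᶠ[𝓝 s] μ := by
    intro s hs
    filter_upwards [isOpen_compl_singleton.mem_nhds (show s ∈ ({0}ᶜ : Set ℂ) from hs)] with z hz
    exact if_neg hz
  have ho : IsOpen (ball (0 : ℂ) r \ {0}) := isOpen_ball.sdiff isClosed_singleton
  have hb' : ∀ s ∈ ball (0 : ℂ) r0 \ {0}, ‖μ' s‖ ≤ max C 0 * ‖s‖ ^ α ∧
      ‖fderiv ℝ μ' s‖ ≤ max C 0 * ‖s‖ ^ (α - 1) := by
    intro s hs
    have hs0 : s ≠ 0 := hs.2
    have hn : 0 < ‖s‖ := norm_pos_iff.2 hs0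
    have hn1 : ‖s‖ ≤ 1 := (mem_ball_zero_iff.1 hs.1).le.trans (min_le_right _ _)
    rw [(hev s hs0).fderiv_eq, (hev s hs0).eq_of_nhds]
    obtain ⟨h1, h2⟩ := hb s (hsub hs)
    have e1 : ‖s‖ ^ g ≤ ‖s‖ ^ α := Real.rpow_le_rpow_of_exponent_ge hn hn1 hαg
    have e2 : ‖s‖ ^ (g - 1) ≤ ‖s‖ ^ (α - 1) :=
      Real.rpow_le_rpow_of_exponent_ge hn hn1 (by linarith)
    constructor
    · exact h1.trans (mul_le_mul (le_max_left _ _) e1 (by positivity) (le_max_right _ _))
    · exact h2.trans (mul_le_mul (le_max_left _ _) e2 (by positivity) (le_max_right _ _))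
  have hd' : DifferentiableOn ℝ μ' (ball 0 r0 \ {0}) := by
    intro s hs
    have h1 : DifferentiableAt ℝ μ s :=
      (hμ.contDiffAt (ho.mem_nhds (hsub hs))).differentiableAt (by simp)
    exact (h1.congr_of_eventuallyEq (hev s hs.2)).differentiableWithinAt
  have hh := hold_of_deriv (le_max_right C 0) hα0 hα1 hd' hb' (if_pos rfl)
  obtain ⟨rb, hrb, hrb0, w, hwc, hw0, hwn, -, hwe⟩ :=
    belt hα0 hα1 hr00 hh (if_pos rfl) (show (0 : ℝ) < 1 / 4 by norm_num)
  obtain ⟨G, hN⟩ := exists_NId hwc hwn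
  have hG0 : G 0 = 0 := by
    have := hN.gw 0
    rwa [hw0] at this
  have hlow : ∀ t, ‖t‖ ≤ 5 / 4 * ‖G t‖ := by
    intro t
    have := hN.up (G t) (G 0)
    rwa [hN.wg, hN.wg, hG0, sub_zero, sub_zero] at this
  have hup : ∀ t, ‖G t‖ ≤ 4 / 3 * ‖t‖ := by
    intro t
    have := hN.low t 0
    rwa [hG0, sub_zero, sub_zero] at this
  have hmem : ∀ t ∈ ball (0 : ℂ) (rb / 2), G t ∈ ball (0 : ℂ) rb := by
    intro t ht
    rw [mem_ball_zero_iff] at ht ⊢
    have := hup t
    linarith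
  refine ⟨rb / 2, by positivity, G, hG0, hN.gc.contDiffOn, ?_, ?_, ⟨rb / 4, by positivity, ?_⟩, ?_⟩
  · intro t _ t' _ h
    have h1 := congrArg w h
    rwa [hN.wg, hN.wg] at h1
  · intro t ht
    have h1 := hlow t
    have h2 := hup t
    have h3 := norm_nonneg t
    have h4 := norm_nonneg (G t)
    refine ⟨by linarith, by linarith, ?_⟩
    exact ball_subset_ball (hrb0.trans (min_le_left _ _)) (hmem t ht)
  · intro z hz
    refine ⟨w z, ?_, hN.gw z⟩
    rw [mem_ball_zero_iff] at hz ⊢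
    have h1 := hN.up z 0
    rw [hw0, sub_zero, sub_zero] at h1
    linarith
  · intro t ht
    set W := fderiv ℝ w (G t) with hW
    set L := fderiv ℝ G t with hL
    obtain ⟨n1, n2, n3, -⟩ := near_id (hN.near (G t))
    have hc := hN.comp2 t
    have hc1 := (pz_comp W L).1
    have hc2 := (pz_comp W L).2
    rw [hc] at hc1 hc2
    rw [pzb_id] at hc2
    rw [pz_id] at hc1
    have hwe' := hwe (G t) (hmem t ht)
    have hp0 : pz W ≠ 0 := by
      intro h
      rw [← hW, h, norm_zero] at n1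
      linarith
    have hkey : pzb L = - μ' (G t) * starRingEnd ℂ (pz L) := by
      apply mul_right_cancel₀ hp0
      simp only [smul_eq_mul] at hc2
      rw [hwe'] at hc2
      linear_combination (-1 : ℂ) * hc2
    constructor
    · have hdet : L.det * W.det = 1 := by
        have h1 : (L.comp W).det = L.det * W.det := LinearMap.det_comp _ _
        have h2 := hN.comp3 t
        rw [← hL, ← hW] at h2
        rw [← h1, h2]
        exact LinearMap.det_id
      have hWpos : 0 < W.det := by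
        rw [det_pz]
        have := norm_nonneg (pzb W)
        rw [← hW] at n1 n2
        nlinarith
      by_contra hcon
      push Not at hcon
      nlinarith
    · intro ht0
      have hGt : G t ≠ 0 := by
        intro h
        have := hlow t
        rw [h, norm_zero, mul_zero] at this
        exact ht0 (norm_le_zero_iff.1 this)
      have h1 : μ' (G t) = μ (G t) := if_neg hGt
      rw [h1] at hkey
      exact hkey

end Vale.Agent.P247.H620
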