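import Vale.Agent.P247.H574.Sta2

/-!
# P247, LSX: linear algebra of a box, normalisation `m (0, 0) = 0`
-/

open scoped ContDiff Topology
open Set MeasureTheory Filter Metric

noncomputable section

namespace Vale.Agent.P247.H620

open Vale.Agent.P247.H74 Vale.Agent.P247.H574

/-! ## the real linear map `a z + b z̄` -/

/-- `ζ ↦ a ζ + b ζ̄` is injective if `‖b‖ < ‖a‖` -/
theorem rl_inj {a b : ℂ} (h : ‖b‖ < ‖a‖) {ζ : ℂ} (h0 : a * ζ + b * starRingEnd ℂ ζ = 0) : ζ = 0 := by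
  by_contra hζ
  have h1 : a * ζ = -(b * starRingEnd ℂ ζ) := eq_neg_of_add_eq_zero_left h0
  have h2 : ‖a‖ * ‖ζ‖ = ‖b‖ * ‖ζ‖ := by
    have := congrArg norm h1
    rwa [norm_mul, norm_neg, norm_mul, Complex.norm_conj] at this
  have h3 : 0 < ‖ζ‖ := norm_pos_iff.2 hζ
  nlinarith

/-- solving `a ζ + b ζ̄ = w` -/
theorem rl_solve {a b : ℂ} (h : ‖b‖ < ‖a‖) (w : ℂ) :
    a * ((starRingEnd ℂ a * w - b * starRingEnd ℂ w) / ((‖a‖ ^ 2 - ‖b‖ ^ 2 : ℝ) : ℂ)) +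
      b * starRingEnd ℂ ((starRingEnd ℂ a * w - b * starRingEnd ℂ w) / ((‖a‖ ^ 2 - ‖b‖ ^ 2 : ℝ) : ℂ)) = w := by
  have hd : ((‖a‖ ^ 2 - ‖b‖ ^ 2 : ℝ) : ℂ) ≠ 0 := by
    rw [Ne, Complex.ofReal_eq_zero]
    have := norm_nonneg b
    nlinarith
  rw [map_div₀, Complex.conj_ofReal]
  simp only [map_sub, map_mul, Complex.conj_conj]
  field_simp
  have e1 : ((‖a‖ ^ 2 - ‖b‖ ^ 2 : ℝ) : ℂ) = a * starRingEnd ℂ a - b * starRingEnd ℂ b := by
    rw [Complex.mul_conj, Complex.mul_conj, Complex.normSq_eq_norm_sq, Complex.normSq_eq_norm_sq]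
    push_cast; ring
  rw [e1]; ring

/-! ## `J` in a box -/

theorem Box.J_vert {D : Data} (b : Box D) {p : ℂ × ℂ} (hp : p ∈ PD 2) (η : ℂ) :
    D.J (b.Θ p) (fderiv ℝ b.Θ p (0, η)) = fderiv ℝ b.Θ p (0, Complex.I * η) := by
  have h1 := b.hol p hp
  have e1 : ((0, η) : ℂ × ℂ) = η.re • ((0, 1) : ℂ × ℂ) + η.im • ((0, Complex.I) : ℂ × ℂ) := by
    ext <;> simp
  have e2 : ((0, Complex.I * η) : ℂ × ℂ)
      = η.re • ((0, Complex.I) : ℂ × ℂ) - η.im • ((0, 1) : ℂ × ℂ) := by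
    ext
    · simp
    · simp only [Prod.smul_mk, Prod.mk_sub_mk, Complex.real_smul, mul_one]
      conv_lhs => rw [← Complex.re_add_im η]
      linear_combination (η.im : ℂ) * Complex.I_mul_I
  rw [e1, e2, map_add, map_smul, map_smul, map_add, map_smul, map_smul, map_sub, map_smul,
    map_smul, h1, D.J_sq, smul_neg, sub_eq_add_neg]

/-- the action of `J` on the tangent plane of a graph -/
theorem Box.exists_act {D : Data} (b : Box D) {p : ℂ × ℂ} (hp : p ∈ PD 2) (ζ : ℂ) :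
    ∃ ξ : ℂ, ξ + b.m p * starRingEnd ℂ ξ = Complex.I * (ζ + b.m p * starRingEnd ℂ ζ) ∧
      ∀ a : ℂ, D.J (b.Θ p) (fderiv ℝ b.Θ p (ζ, a * ζ + (b.m p * a + b.A p) * starRingEnd ℂ ζ)) =
        fderiv ℝ b.Θ p (ξ, a * ξ + (b.m p * a + b.A p) * starRingEnd ℂ ξ) := by
  obtain ⟨⟨α, β⟩, hαβ⟩ := (b.imm p hp).2 (D.J (b.Θ p) (fderiv ℝ b.Θ p (ζ, 0)))
  have key : ∀ η : ℂ, D.J (b.Θ p) (fderiv ℝ b.Θ p (ζ, η))
      = fderiv ℝ b.Θ p (α, β + Complex.I * η) := by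
    intro η
    have e1 : ((ζ, η) : ℂ × ℂ) = (ζ, 0) + (0, η) := by simp
    have e2 : ((α, β + Complex.I * η) : ℂ × ℂ) = (α, β) + (0, Complex.I * η) := by simp
    rw [e1, e2, map_add, map_add, map_add, hαβ, Box.J_vert b hp]
  have main : ∀ a : ℂ, a * α + (b.m p * a + b.A p) * starRingEnd ℂ α
      = β + Complex.I * (a * ζ + (b.m p * a + b.A p) * starRingEnd ℂ ζ) := by
    intro a
    obtain ⟨ξ, hξ⟩ := (b.graph p hp a (b.m p * a + b.A p)).1 rfl ζ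
    rw [key] at hξ
    have h2 := (b.imm p hp).1 hξ
    rw [Prod.mk.injEq] at h2
    obtain ⟨h3, h4⟩ := h2
    subst h3
    exact h4.symm
  refine ⟨α, ?_, fun a => ?_⟩
  · have h1 := main 1
    have h0 := main 0
    linear_combination h1 - h0
  · rw [key, main a]

theorem Box.act_of_rel {D : Data} (b : Box D) {p : ℂ × ℂ} (hp : p ∈ PD 2) {ζ ξ : ℂ}
    (h : ξ + b.m p * starRingEnd ℂ ξ = Complex.I * (ζ + b.m p * starRingEnd ℂ ζ)) (a : ℂ) :
    D.J (b.Θ p) (fderiv ℝ b.Θ p (ζ, a * ζ + (b.m p * a + b.A p) * starRingEnd ℂ ζ)) =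
      fderiv ℝ b.Θ p (ξ, a * ξ + (b.m p * a + b.A p) * starRingEnd ℂ ξ) := by
  obtain ⟨ξ', h1, h2⟩ := Box.exists_act b hp ζ
  have h3 : 1 * (ξ - ξ') + b.m p * starRingEnd ℂ (ξ - ξ') = 0 := by
    rw [map_sub]; linear_combination h - h1
  have h4 := rl_inj (a := 1) (b := b.m p) (by rw [norm_one]; exact b.m_lt p hp) h3
  rw [sub_eq_zero] at h4
  subst h4
  exact h2 a

/-! ## the normalised box -/

/-- `z ↦ (1/4) (z - m₀ z̄)` -/
def lam (m₀ : ℂ) : ℂ →L[ℝ] ℂ :=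
  (1 / 4 : ℝ) • (ContinuousLinearMap.id ℝ ℂ - m₀ • (Complex.conjCLE : ℂ →L[ℝ] ℂ))

theorem lam_apply (m₀ z : ℂ) : lam m₀ z = (1 / 4 : ℂ) * z + (-(1 / 4) * m₀) * starRingEnd ℂ z := by
  simp only [lam, smul_apply, sub_apply, ContinuousLinearMap.coe_id', id_eq,
    ContinuousLinearEquiv.coe_coe, Complex.conjCLE_apply, smul_eq_mul, Complex.real_smul]
  push_cast
  ring

theorem norm_lam_le {m₀ : ℂ} (h : ‖m₀‖ < 1) (z : ℂ) : ‖lam m₀ z‖ ≤ ‖z‖ / 2 := by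
  rw [lam_apply]
  refine (norm_add_le _ _).trans ?_
  rw [norm_mul, norm_mul, norm_mul, Complex.norm_conj, norm_neg]
  have : ‖(1 / 4 : ℂ)‖ = 1 / 4 := by norm_num
  rw [this]
  have := norm_nonneg z
  nlinarith

theorem lam_inj {m₀ : ℂ} (h : ‖m₀‖ < 1) {z : ℂ} (h0 : lam m₀ z = 0) : z = 0 := by
  rw [lam_apply] at h0
  refine rl_inj ?_ h0
  rw [norm_mul, norm_neg]
  have : ‖(1 / 4 : ℂ)‖ = 1 / 4 := by norm_num
  rw [this]
  linarith

theorem lam_surj {m₀ : ℂ} (h : ‖m₀‖ < 1) (w : ℂ) : ∃ z, lam m₀ z = w := by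
  have h1 : ‖-(1 / 4 : ℂ) * m₀‖ < ‖(1 / 4 : ℂ)‖ := by
    rw [norm_mul, norm_neg]
    have : ‖(1 / 4 : ℂ)‖ = 1 / 4 := by norm_num
    rw [this]
    linarith
  exact ⟨_, (lam_apply _ _).trans (rl_solve h1 w)⟩

/-- the change of coordinates (z, y) ↦ (lam z, y)  -/
def lamP (m₀ : ℂ) : ℂ × ℂ →L[ℝ] ℂ × ℂ := (lam m₀).prodMap (ContinuousLinearMap.id ℝ ℂ)

theorem lamP_apply (m₀ : ℂ) (p : ℂ × ℂ) : lamP m₀ p = (lam m₀ p.1, p.2) := rfl

theorem lamP_mem {m₀ : ℂ} (h : ‖m₀‖ < 1) {p : ℂ × ℂ} (hp : p ∈ PD 2) : lamP m₀ p ∈ PD 2 := by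
  rw [PD, mem_prod, mem_ball_zero_iff, mem_ball_zero_iff] at hp ⊢
  rw [lamP_apply]
  refine ⟨?_, hp.2⟩
  have := norm_lam_le h p.1
  have h2 := norm_nonneg p.1
  show ‖lam m₀ p.1‖ < 2
  linarith [hp.1]

theorem moeb_lt {m₀ m : ℂ} (h : ‖m₀‖ < 1) (h' : ‖m‖ < 1) :
    1 - starRingEnd ℂ m₀ * m ≠ 0 ∧ ‖(m - m₀) / (1 - starRingEnd ℂ m₀ * m)‖ < 1 := by
  have h1 : ‖starRingEnd ℂ m₀ * m‖ < 1 := by
    rw [norm_mul, Complex.norm_conj]
    have := norm_nonneg m₀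
    have := norm_nonneg m
    nlinarith
  have h2 : 1 - starRingEnd ℂ m₀ * m ≠ 0 := by
    intro h3
    rw [sub_eq_zero] at h3
    rw [← h3, norm_one] at h1
    exact lt_irrefl _ h1
  refine ⟨h2, ?_⟩
  rw [norm_div, div_lt_one (norm_pos_iff.2 h2)]
  have h3 : Complex.normSq (1 - starRingEnd ℂ m₀ * m) - Complex.normSq (m - m₀)
      = (1 - Complex.normSq m₀) * (1 - Complex.normSq m) := by
    simp only [Complex.normSq_apply, Complex.sub_re, Complex.sub_im, Complex.mul_re,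
      Complex.mul_im, Complex.conj_re, Complex.conj_im, Complex.one_re, Complex.one_im]
    ring
  rw [Complex.normSq_eq_norm_sq, Complex.normSq_eq_norm_sq, Complex.normSq_eq_norm_sq,
    Complex.normSq_eq_norm_sq] at h3
  have h4 : 0 < (1 - ‖m₀‖ ^ 2) * (1 - ‖m‖ ^ 2) := by
    have := norm_nonneg m₀
    have := norm_nonneg m
    apply mul_pos <;> nlinarith
  rw [← h3] at h4
  have := norm_nonneg (m - m₀)
  have := norm_nonneg (1 - starRingEnd ℂ m₀ * m)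
  nlinarith

theorem fderiv_comp_lamP {D : Data} (b : Box D) {m₀ : ℂ} (h : ‖m₀‖ < 1) {p : ℂ × ℂ}
    (hp : p ∈ PD 2) : fderiv ℝ (fun q => b.Θ (lamP m₀ q)) p
      = (fderiv ℝ b.Θ (lamP m₀ p)).comp (lamP m₀) := by
  have ho : IsOpen (PD 2) := isOpen_ball.prod isOpen_ball
  have h1 : DifferentiableAt ℝ b.Θ (lamP m₀ p) :=
    (b.smooth.contDiffAt (ho.mem_nhds (lamP_mem h hp))).differentiableAt (by simp)
  exact (h1.hasFDerivAt.comp p (lamP m₀).hasFDerivAt).fderiv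

/-- the graph condition in the new coordinates -/
theorem graph_norm {D : Data} (b : Box D) {m₀ : ℂ} (h : ‖m₀‖ < 1) {p : ℂ × ℂ} (hp : p ∈ PD 2)
    (a' b' : ℂ) :
    b' = (b.m (lamP m₀ p) - m₀) / (1 - starRingEnd ℂ m₀ * b.m (lamP m₀ p)) * a' +
      (1 / 4) * (1 + (b.m (lamP m₀ p) - m₀) / (1 - starRingEnd ℂ m₀ * b.m (lamP m₀ p)) * starRingEnd ℂ m₀)
        * b.A (lamP m₀ p) ↔
    ∀ ζ : ℂ, ∃ ξ : ℂ, D.J (b.Θ (lamP m₀ p))
        (fderiv ℝ (fun q => b.Θ (lamP m₀ q)) p (ζ, a' * ζ + b' * starRingEnd ℂ ζ)) =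
      fderiv ℝ (fun q => b.Θ (lamP m₀ q)) p (ξ, a' * ξ + b' * starRingEnd ℂ ξ) := by
  have hq := lamP_mem h hp
  set q := lamP m₀ p with hqdef
  have hm := moeb_lt h (b.m_lt q hq)
  rw [fderiv_comp_lamP b h hp]
  simp only [ContinuousLinearMap.comp_apply, lamP_apply]
  -- the old coefficients
  set d : ℂ := 1 - m₀ * starRingEnd ℂ m₀ with hd
  have hd0 : d ≠ 0 := by
    intro h0
    have h1 : m₀ * starRingEnd ℂ m₀ = 1 := by rw [hd] at h0; linear_combination -h0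
    rw [Complex.mul_conj, Complex.normSq_eq_norm_sq] at h1
    have h2 : ‖m₀‖ ^ 2 = 1 := by exact_mod_cast h1
    have := norm_nonneg m₀
    nlinarith
  set a : ℂ := 4 * (a' + starRingEnd ℂ m₀ * b') / d with ha
  set c : ℂ := 4 * (b' + m₀ * a') / d with hc
  have key : ∀ ζ : ℂ, a' * ζ + b' * starRingEnd ℂ ζ = a * lam m₀ ζ + c * starRingEnd ℂ (lam m₀ ζ) := by
    intro ζ
    rw [lam_apply, ha, hc]
    simp only [map_add, map_mul, map_neg, Complex.conj_conj, map_div₀, map_one,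
      Complex.conj_ofNat]
    field_simp
    rw [hd]; ring
  have hgr := b.graph q hq a c
  have e1 : (b' = (b.m q - m₀) / (1 - starRingEnd ℂ m₀ * b.m q) * a' +
      (1 / 4) * (1 + (b.m q - m₀) / (1 - starRingEnd ℂ m₀ * b.m q) * starRingEnd ℂ m₀) * b.A q) ↔
      c = b.m q * a + b.A q := by
    have hm1 := hm.1
    set X := (b.m q - m₀) / (1 - starRingEnd ℂ m₀ * b.m q) with hX
    have hXe : X * (1 - starRingEnd ℂ m₀ * b.m q) = b.m q - m₀ := div_mul_cancel₀ _ hm1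
    have hcd : c * d = 4 * (b' + m₀ * a') := div_mul_cancel₀ _ hd0
    have had : a * d = 4 * (a' + starRingEnd ℂ m₀ * b') := div_mul_cancel₀ _ hd0
    constructor
    · intro h1
      refine mul_right_cancel₀ hd0 ?_
      linear_combination hcd - b.m q * had + (4 * (1 - starRingEnd ℂ m₀ * b.m q)) * h1
        + (4 * a' + starRingEnd ℂ m₀ * b.A q) * hXe - b.A q * hd
    · intro h1
      refine mul_left_cancel₀ hm1 ?_
      linear_combination (1 / 4) * d * h1 - (1 / 4) * hcd + (1 / 4) * b.m q * had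
        - (a' + (1 / 4) * starRingEnd ℂ m₀ * b.A q) * hXe + (1 / 4) * b.A q * hd
  rw [e1, hgr]
  constructor
  · intro h1 ζ
    obtain ⟨ξ, hξ⟩ := h1 (lam m₀ ζ)
    obtain ⟨ξ', hξ'⟩ := lam_surj h ξ
    refine ⟨ξ', ?_⟩
    rw [key, key, hξ']
    exact hξ
  · intro h1 ζ
    obtain ⟨ζ', hζ'⟩ := lam_surj h ζ
    obtain ⟨ξ, hξ⟩ := h1 ζ'
    refine ⟨lam m₀ ξ, ?_⟩
    rw [key, key, hζ'] at hξ
    exact hξ

theorem contDiffOn_mob {f : ℂ × ℂ → ℂ} {s : Set (ℂ × ℂ)} (hf : ContDiffOn ℝ ∞ f s) (m₀ : ℂ)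
    (h : ∀ p ∈ s, 1 - starRingEnd ℂ m₀ * f p ≠ 0) :
    ContDiffOn ℝ ∞ (fun q => (f q - m₀) / (1 - starRingEnd ℂ m₀ * f q)) s := by
  have h4 : ContDiffOn ℝ ∞ (fun q => 1 - starRingEnd ℂ m₀ * f q) s :=
    contDiffOn_const.sub (contDiffOn_const.mul hf)
  have h5 : ContDiffOn ℝ ∞ (fun q => (1 - starRingEnd ℂ m₀ * f q)⁻¹) s := h4.inv h
  have h6 : ContDiffOn ℝ ∞ (fun q => f q - m₀) s := hf.sub contDiffOn_const
  simpa only [div_eq_mul_inv] using h6.mul h5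

/-- the box in the normalised coordinates -/
def Box.norm {D : Data} (b : Box D) : Box D where
  Θ := fun q => b.Θ (lamP (b.m (0, 0)) q)
  smooth := by
    have h0 := b.m_lt (0, 0) (by simp [PD])
    exact b.smooth.comp (lamP (b.m (0, 0))).contDiff.contDiffOn fun p hp => lamP_mem h0 hp
  inj := by
    have h0 := b.m_lt (0, 0) (by simp [PD])
    intro p hp q hq k hk
    obtain ⟨h1, h2⟩ := b.inj _ (lamP_mem h0 hp) _ (lamP_mem h0 hq) k hk
    refine ⟨?_, h2⟩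
    rw [lamP_apply, lamP_apply, Prod.mk.injEq] at h1
    have h3 : lam (b.m (0, 0)) (p.1 - q.1) = 0 := by rw [map_sub, h1.1, sub_self]
    have h4 := lam_inj h0 h3
    exact Prod.ext (sub_eq_zero.1 h4) h1.2
  imm := by
    have h0 := b.m_lt (0, 0) (by simp [PD])
    intro p hp
    rw [fderiv_comp_lamP b h0 hp, ContinuousLinearMap.coe_comp]
    refine (b.imm _ (lamP_mem h0 hp)).comp ⟨fun x y hxy => ?_, fun y => ?_⟩
    · have hxy' : (lam (b.m (0, 0)) x.1, x.2) = (lam (b.m (0, 0)) y.1, y.2) := hxy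
      rw [Prod.mk.injEq] at hxy'
      have h3 : lam (b.m (0, 0)) (x.1 - y.1) = 0 := by rw [map_sub, hxy'.1, sub_self]
      exact Prod.ext (sub_eq_zero.1 (lam_inj h0 h3)) hxy'.2
    · obtain ⟨z, hz⟩ := lam_surj h0 y.1
      exact ⟨(z, y.2), Prod.ext hz rfl⟩
  hol := by
    have h0 := b.m_lt (0, 0) (by simp [PD])
    intro p hp
    rw [fderiv_comp_lamP b h0 hp]
    simp only [ContinuousLinearMap.comp_apply, lamP_apply, map_zero]
    exact b.hol _ (lamP_mem h0 hp)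
  m := fun q => (b.m (lamP (b.m (0, 0)) q) - b.m (0, 0)) /
    (1 - starRingEnd ℂ (b.m (0, 0)) * b.m (lamP (b.m (0, 0)) q))
  A := fun q => (1 / 4) * (1 + (b.m (lamP (b.m (0, 0)) q) - b.m (0, 0)) /
    (1 - starRingEnd ℂ (b.m (0, 0)) * b.m (lamP (b.m (0, 0)) q)) * starRingEnd ℂ (b.m (0, 0))) *
      b.A (lamP (b.m (0, 0)) q)
  m_smooth := by
    have h0 := b.m_lt (0, 0) (by simp [PD])
    have h1 : ContDiffOn ℝ ∞ (fun q => b.m (lamP (b.m (0, 0)) q)) (PD 2) :=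
      b.m_smooth.comp (lamP (b.m (0, 0))).contDiff.contDiffOn fun p hp => lamP_mem h0 hp
    exact contDiffOn_mob h1 _ fun p hp => (moeb_lt h0 (b.m_lt _ (lamP_mem h0 hp))).1
  A_smooth := by
    have h0 := b.m_lt (0, 0) (by simp [PD])
    have h1 : ContDiffOn ℝ ∞ (fun q => b.m (lamP (b.m (0, 0)) q)) (PD 2) :=
      b.m_smooth.comp (lamP (b.m (0, 0))).contDiff.contDiffOn fun p hp => lamP_mem h0 hp
    have h2 : ContDiffOn ℝ ∞ (fun q => b.A (lamP (b.m (0, 0)) q)) (PD 2) :=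
      b.A_smooth.comp (lamP (b.m (0, 0))).contDiff.contDiffOn fun p hp => lamP_mem h0 hp
    have h3 := contDiffOn_mob h1 (b.m (0, 0))
      fun p hp => (moeb_lt h0 (b.m_lt _ (lamP_mem h0 hp))).1
    have h4 : ContDiffOn ℝ ∞ (fun q => 1 + (b.m (lamP (b.m (0, 0)) q) - b.m (0, 0)) /
        (1 - starRingEnd ℂ (b.m (0, 0)) * b.m (lamP (b.m (0, 0)) q)) * starRingEnd ℂ (b.m (0, 0))) (PD 2) :=
      contDiffOn_const.add (h3.mul contDiffOn_const)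
    have h5 : ContDiffOn ℝ ∞ (fun q => (1 / 4 : ℂ) * (1 + (b.m (lamP (b.m (0, 0)) q) - b.m (0, 0)) /
        (1 - starRingEnd ℂ (b.m (0, 0)) * b.m (lamP (b.m (0, 0)) q)) * starRingEnd ℂ (b.m (0, 0)))) (PD 2) :=
      contDiffOn_const.mul h4
    exact h5.mul h2
  m_lt := by
    have h0 := b.m_lt (0, 0) (by simp [PD])
    intro p hp
    exact (moeb_lt h0 (b.m_lt _ (lamP_mem h0 hp))).2
  graph := by
    have h0 := b.m_lt (0, 0) (by simp [PD])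
    intro p hp a' b'
    exact graph_norm b h0 hp a' b'

theorem Box.norm_m_zero {D : Data} (b : Box D) : (Box.norm b).m (0, 0) = 0 := by
  show (b.m (lamP (b.m (0, 0)) (0, 0)) - b.m (0, 0)) / _ = 0
  rw [show lamP (b.m (0, 0)) (0, 0) = (0, 0) from by rw [lamP_apply]; simp, sub_self, zero_div]

theorem Box.norm_zero {D : Data} (b : Box D) : (Box.norm b).Θ (0, 0) = b.Θ (0, 0) := by
  show b.Θ (lamP (b.m (0, 0)) (0, 0)) = _
  rw [show lamP (b.m (0, 0)) (0, 0) = (0, 0) from by rw [lamP_apply]; simp]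

theorem GoodBox.norm {D : Data} {S : ICur D} {b : Box D} {ρ : ℝ} (h : GoodBox S b ρ) :
    GoodBox S (Box.norm b) ρ := by
  obtain ⟨h1, h2, h3⟩ := h
  refine ⟨h1, h2, fun z hz y hy hρ => ?_⟩
  refine h3 (lam (b.m (0, 0)) z) ?_ y hy hρ
  rw [mem_closedBall_zero_iff] at hz ⊢
  have := norm_lam_le (b.m_lt (0, 0) (by simp [PD])) z
  have := norm_nonneg z
  linarith

end Vale.Agent.P247.H620
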