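import Vale.Agent.P247.H620.LConf

/-!
# P247, LSX: the `J`-disc of a branch
-/

open scoped ContDiff Topology
open Set MeasureTheory Filter Metric

noncomputable section

namespace Vale.Agent.P247.H620

open Vale.Agent.P247.H74 Vale.Agent.P247.H574

section

variable {D : Data} {S : ICur D} {b : Box D} {ρ : ℝ} {N : ℕ} {Y P : ℂ → Fin N → ℂ}
  {R : Measure (ℂ × ℂ)} {δ : ℝ} {L : ℕ} {k μ : Fin L → ℕ} {W : Fin L → ℂ → ℂ}

/-- a `J`-holomorphic parametrisation of a branch -/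
structure Cnf (b : Box D) (k : ℕ) (W : ℂ → ℂ) (δ r₁ : ℝ) (σ : ℂ → ℂ) : Prop where
  pos : 0 < r₁
  zero : σ 0 = 0
  c1 : ContDiffOn ℝ 1 σ (ball 0 r₁)
  inj : InjOn σ (ball 0 r₁)
  low : ∀ t ∈ ball (0 : ℂ) r₁, ‖t‖ / 2 ≤ ‖σ t‖
  mem : ∀ t ∈ ball (0 : ℂ) r₁, σ t ∈ ball (0 : ℂ) δ
  onto : ∀ c > 0, ∃ r₂ > 0, ball (0 : ℂ) r₂ ⊆ σ '' (ball 0 c ∩ ball 0 r₁)
  det : ∀ t ∈ ball (0 : ℂ) r₁, 0 < (fderiv ℝ σ t).det
  smooth : ContDiffOn ℝ ∞ (fun t => bm b k W (σ t)) (ball 0 r₁)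
  hol : ∀ t ∈ ball (0 : ℂ) r₁, fderiv ℝ (fun t => bm b k W (σ t)) t Complex.I =
    D.J (bm b k W (σ t)) (fderiv ℝ (fun t => bm b k W (σ t)) t 1)

theorem Cnf.mono {k : ℕ} {W : ℂ → ℂ} {r₁ r : ℝ} {σ : ℂ → ℂ} (h : Cnf b k W δ r₁ σ) (hr : 0 < r)
    (hr1 : r ≤ r₁) : Cnf b k W δ r σ where
  pos := hr
  zero := h.zero
  c1 := h.c1.mono (ball_subset_ball hr1)
  inj := h.inj.mono (ball_subset_ball hr1)
  low := fun t ht => h.low t (ball_subset_ball hr1 ht)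
  mem := fun t ht => h.mem t (ball_subset_ball hr1 ht)
  onto := by
    intro c hc
    obtain ⟨r₂, h1, h2⟩ := h.onto (min c r) (lt_min hc hr)
    refine ⟨r₂, h1, h2.trans (image_mono ?_)⟩
    rintro t ⟨ht, _⟩
    exact ⟨ball_subset_ball (min_le_left _ _) ht, ball_subset_ball (min_le_right _ _) ht⟩
  det := fun t ht => h.det t (ball_subset_ball hr1 ht)
  smooth := h.smooth.mono (ball_subset_ball hr1)
  hol := fun t ht => h.hol t (ball_subset_ball hr1 ht)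

theorem bm_continuous (h : Pui b.m b.A Y δ k μ W) (hb : ∀ z i, ‖Y z i‖ ≤ ρ) (hρ : ρ < 1)
    (hδ : δ ≤ 1) (l : Fin L) (hl : W l 0 = 0) :
    ContinuousOn (bm b (k l) (W l)) (ball 0 δ) := by
  have h1 : ball (0 : ℂ) δ ⊆ {s | ‖s‖ ^ k l < δ} := by
    intro s hs
    by_cases h0 : s = 0
    · rw [h0]
      show ‖(0 : ℂ)‖ ^ k l < δ
      rw [norm_zero, zero_pow (by have := h.one_k l; omega)]
      rw [h0, mem_ball_zero_iff, norm_zero] at hs
      exact hs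
    · exact (ball_Up (h.one_k l) hδ ⟨hs, h0⟩).1
  refine b.smooth.continuousOn.comp (ContinuousOn.prodMk (by fun_prop) ((h.cont l).mono h1)) ?_
  intro s hs
  by_cases h0 : s = 0
  · rw [h0]
    show ((0 : ℂ) ^ k l, W l 0) ∈ PD 2
    rw [hl, zero_pow (by have := h.one_k l; omega)]
    simp [PD]
  · exact h.mem_PD hb hρ hδ l (ball_Up (h.one_k l) hδ ⟨hs, h0⟩)

theorem rel_of_conf {m c a : ℂ} {k : ℕ} {s : ℂ} (hs : s ≠ 0)
    (h : (1 / 2 : ℂ) * (a + Complex.I * c) = - (m * (starRingEnd ℂ s / s) ^ (k - 1)) *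
      starRingEnd ℂ ((1 / 2 : ℂ) * (a - Complex.I * c))) :
    (k * s ^ (k - 1) * c) + m * starRingEnd ℂ (k * s ^ (k - 1) * c) =
      Complex.I * ((k * s ^ (k - 1) * a) + m * starRingEnd ℂ (k * s ^ (k - 1) * a)) := by
  have h1 : a + Complex.I * c + (m * (starRingEnd ℂ s / s) ^ (k - 1)) * (starRingEnd ℂ a + Complex.I * starRingEnd ℂ c) = 0 := by
    simp only [map_mul, map_sub, Complex.conj_I, map_div₀, map_one, Complex.conj_ofNat] at h
    linear_combination 2 * h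
  have h2 : (starRingEnd ℂ s / s) ^ (k - 1) * s ^ (k - 1) = starRingEnd ℂ s ^ (k - 1) := by
    rw [div_pow, div_mul_cancel₀ _ (pow_ne_zero _ hs)]
  simp only [map_mul, map_pow, map_natCast]
  rw [← h2]
  linear_combination (-Complex.I * k * s ^ (k - 1)) * h1
    + (k * s ^ (k - 1) * c + m * ((starRingEnd ℂ s / s) ^ (k - 1) * s ^ (k - 1)) * k * starRingEnd ℂ c)
      * Complex.I_mul_I

theorem Pui.exists_cnf (hC : CONF_statement) (hJ : JREG_statement)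
    (h : Pui b.m b.A Y δ k μ W) (hb : ∀ z i, ‖Y z i‖ ≤ ρ) (hρ : ρ < 1)
    (hδ : δ ≤ 1) (hδ0 : 0 < δ) {C γ : ℝ} (hγ : 0 < γ) (hgr : Gr δ k W C γ)
    (hm0 : b.m (0, 0) = 0) (l : Fin L) (hl : W l 0 = 0) :
    ∃ (r₁ : ℝ) (σ : ℂ → ℂ), Cnf b (k l) (W l) δ r₁ σ := by
  set g := min γ 1 with hg
  have hg0 : 0 < g := lt_min hγ one_pos
  have hgγ : g ≤ γ := min_le_left _ _
  have hg1 : g ≤ 1 := min_le_right _ _
  have hk := h.one_k l
  have hsub := ball_Up (δ := δ) hk hδ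
  obtain ⟨C', hC'⟩ := h.bel_bound hb hρ hδ hgr hgγ hg1 hm0 l hl
  obtain ⟨r₀, hr₀, σ, s0, s1, s2, s3, ⟨r₂, hr₂, s4⟩, s5⟩ := hC (bel b (k l) (W l)) δ C' g hδ0 hg0 hg1
    ((h.bel_smooth hb hρ hδ l).mono hsub) hC'
  have hne : ∀ t ∈ ball (0 : ℂ) r₀, t ≠ 0 → σ t ≠ 0 := by
    intro t ht h0 h1
    have := (s3 t ht).1
    rw [h1, norm_zero] at this
    have h2 := norm_pos_iff.2 h0
    linarith
  have hUp : ∀ t ∈ ball (0 : ℂ) r₀, t ≠ 0 → σ t ∈ Up (k l) δ := fun t ht h0 =>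
    hsub ⟨(s3 t ht).2.2, hne t ht h0⟩
  have hσd : ∀ t ∈ ball (0 : ℂ) r₀, DifferentiableAt ℝ σ t := fun t ht =>
    (s1.contDiffAt (isOpen_ball.mem_nhds ht)).differentiableAt (by simp)
  have hbd : ∀ s ∈ Up (k l) δ, DifferentiableAt ℝ (bm b (k l) (W l)) s := fun s hs =>
    ((h.bm_smooth hb hρ hδ l).contDiffAt ((Up_open _ _).mem_nhds hs)).differentiableAt (by simp)
  have hUd : ∀ t ∈ ball (0 : ℂ) r₀, t ≠ 0 → HasFDerivAt (fun t => bm b (k l) (W l) (σ t))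
      ((fderiv ℝ (bm b (k l) (W l)) (σ t)).comp (fderiv ℝ σ t)) t := fun t ht h0 =>
    HasFDerivAt.comp (g := bm b (k l) (W l)) t (hbd _ (hUp t ht h0)).hasFDerivAt
      (hσd t ht).hasFDerivAt
  -- holomorphy off `0`
  have hol : ∀ t ∈ ball (0 : ℂ) r₀, t ≠ 0 →
      fderiv ℝ (fun t => bm b (k l) (W l) (σ t)) t Complex.I =
      D.J (bm b (k l) (W l) (σ t)) (fderiv ℝ (fun t => bm b (k l) (W l) (σ t)) t 1) := by
    intro t ht h0
    have hs := hUp t ht h0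
    rw [(hUd t ht h0).fderiv]
    simp only [ContinuousLinearMap.comp_apply]
    rw [h.bm_fderiv hb hρ hδ l hs rfl rfl, h.bm_fderiv hb hρ hδ l hs rfl rfl]
    have h5 := (s5 t ht).2 h0
    have h6 := rel_of_conf (hne t ht h0) h5
    exact (Box.act_of_rel b (h.mem_PD hb hρ hδ l hs) h6 _).symm
  -- bounds
  set r₁ := r₀ / 2 with hr₁
  have hr1 : 0 < r₁ := by positivity
  have hr10 : r₁ < r₀ := by rw [hr₁]; linarith
  have hs10 : closedBall (0 : ℂ) r₁ ⊆ ball 0 r₀ := closedBall_subset_ball hr10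
  have hsb : ball (0 : ℂ) r₁ ⊆ ball 0 r₀ := ball_subset_ball hr10.le
  obtain ⟨Cσ, hCσ⟩ := (isCompact_closedBall (0 : ℂ) r₁).exists_bound_of_continuousOn
    ((s1.continuousOn_fderiv_of_isOpen isOpen_ball le_rfl).mono hs10)
  have hCσ0 : 0 ≤ Cσ := (norm_nonneg _).trans (hCσ 0 (mem_closedBall_self hr1.le))
  obtain ⟨CΘ, hCΘ0, hCΘ⟩ := smooth_bd b.smooth
  have hgrad : ∀ t ∈ ball (0 : ℂ) r₁ \ {0}, ‖fderiv ℝ (fun t => bm b (k l) (W l) (σ t)) t‖ ≤
      (CΘ * (k l + |C|) * Cσ * (2 : ℝ) ^ (1 - g)) * ‖t‖ ^ (g - 1) := by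
    intro t ht
    have htr := hsb ht.1
    have ht0 : t ≠ 0 := ht.2
    have hs := hUp t htr ht0
    set s := σ t with hsdef
    have hs0 : s ≠ 0 := hs.2
    have hsp : 0 < ‖s‖ := norm_pos_iff.2 hs0
    have hs1 : ‖s‖ ≤ 1 := (mem_ball_zero_iff.1 (s3 t htr).2.2).le.trans hδ
    obtain ⟨r1, r2, r3, r4, r5⟩ := rpow_aux hsp hs1 hgγ hg1
    rw [(hUd t htr ht0).fderiv]
    refine (ContinuousLinearMap.opNorm_comp_le _ _).trans ?_
    have n1 : ‖fderiv ℝ σ t‖ ≤ Cσ := hCσ t (ball_subset_closedBall ht.1)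
    have n2 : ‖fderiv ℝ (bm b (k l) (W l)) s‖ ≤ CΘ * ((k l + |C|) * ‖s‖ ^ (g - 1)) := by
      have ho : IsOpen (PD 2) := isOpen_ball.prod isOpen_ball
      have hmem := h.mem_K1 hb hρ hδ l hs
      have hd : HasFDerivAt (bm b (k l) (W l)) ((fderiv ℝ b.Θ (s ^ k l, W l s)).comp
          ((dpow (k l) s).prod (fderiv ℝ (W l) s))) s :=
        HasFDerivAt.comp s (((b.smooth.contDiffAt
          (ho.mem_nhds (K1_sub hmem))).differentiableAt (by simp)).hasFDerivAt) (h.diff l hs)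
      rw [hd.fderiv]
      refine (ContinuousLinearMap.opNorm_comp_le _ _).trans ?_
      refine mul_le_mul (hCΘ _ hmem) ?_ (norm_nonneg _) hCΘ0
      refine ContinuousLinearMap.opNorm_le_bound _ (by positivity) fun v => ?_
      rw [ContinuousLinearMap.prod_apply, Prod.norm_def, max_le_iff]
      have nv := norm_nonneg v
      have w2' : ‖fderiv ℝ (W l) s‖ ≤ |C| * ‖s‖ ^ (g - 1) :=
        (hgr l s hs0 hs.1).2.trans (mul_le_mul (le_abs_self C) r2 (by positivity) (abs_nonneg _))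
      have h5 := (dpow (k l) s).le_of_opNorm_le (norm_dpow_le (k l) hs1) v
      have h6 := (fderiv ℝ (W l) s).le_of_opNorm_le w2' v
      have hkn : (0 : ℝ) ≤ (k l : ℝ) := by positivity
      have hK0 := abs_nonneg C
      have h7 : (k l : ℝ) ≤ (k l + |C|) * ‖s‖ ^ (g - 1) := by
        have : (k l + |C|) * 1 ≤ (k l + |C|) * ‖s‖ ^ (g - 1) :=
          mul_le_mul_of_nonneg_left r3 (by positivity)
        linarith
      have h8 : |C| * ‖s‖ ^ (g - 1) ≤ (k l + |C|) * ‖s‖ ^ (g - 1) :=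
        mul_le_mul_of_nonneg_right (by linarith) (by positivity)
      exact ⟨h5.trans (mul_le_mul_of_nonneg_right h7 nv),
        h6.trans (mul_le_mul_of_nonneg_right h8 nv)⟩
    have n3 : ‖s‖ ^ (g - 1) ≤ (2 : ℝ) ^ (1 - g) * ‖t‖ ^ (g - 1) := by
      have htp : 0 < ‖t‖ := norm_pos_iff.2 ht0
      have h9 : ‖t‖ / 2 ≤ ‖s‖ := (s3 t htr).1
      have h10 := Real.rpow_le_rpow_of_nonpos (by positivity : 0 < ‖t‖ / 2) h9
        (show g - 1 ≤ 0 by linarith)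
      refine h10.trans (le_of_eq ?_)
      rw [Real.div_rpow htp.le (by norm_num), show (1 - g : ℝ) = -(g - 1) by ring,
        Real.rpow_neg (by norm_num)]
      field_simp
    calc ‖fderiv ℝ (bm b (k l) (W l)) s‖ * ‖fderiv ℝ σ t‖
        ≤ (CΘ * ((k l + |C|) * ‖s‖ ^ (g - 1))) * Cσ :=
          mul_le_mul n2 n1 (norm_nonneg _) (by positivity)
      _ ≤ (CΘ * ((k l + |C|) * ((2 : ℝ) ^ (1 - g) * ‖t‖ ^ (g - 1)))) * Cσ := by gcongr
      _ = _ := by ring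
  have hcont : ContinuousOn (fun t => bm b (k l) (W l) (σ t)) (ball 0 r₀) :=
    (bm_continuous h hb hρ hδ l hl).comp s1.continuousOn fun t ht => (s3 t ht).2.2
  have hc1 : ContDiffOn ℝ 1 (fun t => bm b (k l) (W l) (σ t)) (ball 0 r₀ \ {0}) :=
    ((h.bm_smooth hb hρ hδ l).of_le (by simp)).comp (s1.mono sdiff_subset)
      fun t ht => hUp t ht.1 ht.2
  have hsm := hJ D (fun t => bm b (k l) (W l) (σ t)) r₁ _ g hr1 hg0 (hcont.mono hsb)
    (hc1.mono (sdiff_subset_sdiff_left hsb)) fun t ht => ⟨hgrad t ht, hol t (hsb ht.1) ht.2⟩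
  refine ⟨r₁, σ, hr1, s0, s1.mono hsb, s2.mono hsb, fun t ht => (s3 t (hsb ht)).1,
    fun t ht => (s3 t (hsb ht)).2.2, fun c hc => ?_, fun t ht => (s5 t (hsb ht)).1, hsm, ?_⟩
  · refine ⟨min r₂ (min c r₁ / 2), by positivity, fun s hs => ?_⟩
    have h1 : ‖s‖ < min r₂ (min c r₁ / 2) := mem_ball_zero_iff.1 hs
    obtain ⟨t, ht, hts⟩ := s4 (mem_ball_zero_iff.2 (h1.trans_le (min_le_left _ _)))
    have h2 := (s3 t ht).1
    rw [hts] at h2
    have h3 : ‖s‖ < min c r₁ / 2 := h1.trans_le (min_le_right _ _)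
    have h4 : ‖t‖ < min c r₁ := by linarith
    exact ⟨t, ⟨mem_ball_zero_iff.2 (h4.trans_le (min_le_left _ _)),
      mem_ball_zero_iff.2 (h4.trans_le (min_le_right _ _))⟩, hts⟩
  · -- holomorphy at `0`
    intro t ht
    by_cases h0 : t = 0
    · subst h0
      have hcd : ContinuousAt (fderiv ℝ (fun t => bm b (k l) (W l) (σ t))) 0 :=
        (hsm.continuousOn_fderiv_of_isOpen isOpen_ball (by simp)).continuousAt
          (isOpen_ball.mem_nhds ht)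
      have hcu : ContinuousAt (fun t => bm b (k l) (W l) (σ t)) 0 :=
        hsm.continuousOn.continuousAt (isOpen_ball.mem_nhds ht)
      have hcJ : ContinuousAt (fun t => D.J (bm b (k l) (W l) (σ t))) 0 :=
        ContinuousAt.comp (g := D.J) D.J_smooth.continuous.continuousAt hcu
      have h1 : Tendsto (fun t => fderiv ℝ (fun t => bm b (k l) (W l) (σ t)) t Complex.I)
          (𝓝[≠] 0) (𝓝 (fderiv ℝ (fun t => bm b (k l) (W l) (σ t)) 0 Complex.I)) :=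
        (hcd.clm_apply continuousAt_const).tendsto.mono_left nhdsWithin_le_nhds
      have h2 : Tendsto (fun t => D.J (bm b (k l) (W l) (σ t))
          (fderiv ℝ (fun t => bm b (k l) (W l) (σ t)) t 1)) (𝓝[≠] 0)
          (𝓝 (D.J (bm b (k l) (W l) (σ 0)) (fderiv ℝ (fun t => bm b (k l) (W l) (σ t)) 0 1))) :=
        (hcJ.clm_apply (hcd.clm_apply continuousAt_const)).tendsto.mono_left nhdsWithin_le_nhds
      refine tendsto_nhds_unique_of_eventuallyEq h1 h2 ?_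
      filter_upwards [self_mem_nhdsWithin,
        mem_nhdsWithin_of_mem_nhds (isOpen_ball.mem_nhds (hsb ht))] with t h3 h4
      exact hol t h4 h3
    · exact hol t (hsb ht) h0

end

end Vale.Agent.P247.H620
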