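import Vale.Agent.P247.H620.LSum
import Vale.Agent.P247.H620.LBox

/-!
# P247, LSX: conformal parametrisation of a branch

`CONF_statement` (conformal coordinates for a Hölder coefficient vanishing at `0`) and
`JREG_statement` (isolated singularities) are proved elsewhere (helper734).
-/

open scoped ContDiff Topology
open Set MeasureTheory Filter Metric

noncomputable section

namespace Vale.Agent.P247.H620

open Vale.Agent.P247.H74 Vale.Agent.P247.H574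

def CONF_statement : Prop := ∀ (μ : ℂ → ℂ) (r C g : ℝ), 0 < r → 0 < g → g ≤ 1 →
  ContDiffOn ℝ ∞ μ (ball 0 r \ {0}) →
  (∀ s ∈ ball (0 : ℂ) r \ {0}, ‖μ s‖ ≤ C * ‖s‖ ^ g ∧ ‖fderiv ℝ μ s‖ ≤ C * ‖s‖ ^ (g - 1)) →
  ∃ r₁ > 0, ∃ σ : ℂ → ℂ, σ 0 = 0 ∧ ContDiffOn ℝ 1 σ (ball 0 r₁) ∧ InjOn σ (ball 0 r₁) ∧
    (∀ t ∈ ball (0 : ℂ) r₁, ‖t‖ / 2 ≤ ‖σ t‖ ∧ ‖σ t‖ ≤ 2 * ‖t‖ ∧ σ t ∈ ball (0 : ℂ) r) ∧
    (∃ r₂ > 0, ball (0 : ℂ) r₂ ⊆ σ '' ball 0 r₁) ∧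
    ∀ t ∈ ball (0 : ℂ) r₁, 0 < (fderiv ℝ σ t).det ∧
      (t ≠ 0 → (1 / 2 : ℂ) * (fderiv ℝ σ t 1 + Complex.I * fderiv ℝ σ t Complex.I) =
        - μ (σ t) * starRingEnd ℂ ((1 / 2 : ℂ) * (fderiv ℝ σ t 1 - Complex.I * fderiv ℝ σ t Complex.I)))

def JREG_statement : Prop := ∀ (D : Data) (U : ℂ → R4) (r C g : ℝ), 0 < r → 0 < g →
  ContinuousOn U (ball 0 r) → ContDiffOn ℝ 1 U (ball 0 r \ {0}) →
  (∀ t ∈ ball (0 : ℂ) r \ {0}, ‖fderiv ℝ U t‖ ≤ C * ‖t‖ ^ (g - 1) ∧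
    fderiv ℝ U t Complex.I = D.J (U t) (fderiv ℝ U t 1)) → ContDiffOn ℝ ∞ U (ball 0 r)

/-! ## estimates -/

theorem rpow_aux {x γ g : ℝ} (hx : 0 < x) (hx1 : x ≤ 1) (hg : g ≤ γ) (hg1 : g ≤ 1) :
    x ^ γ ≤ x ^ g ∧ x ^ (γ - 1) ≤ x ^ (g - 1) ∧ 1 ≤ x ^ (g - 1) ∧ x ≤ x ^ g ∧
      x ^ g * x⁻¹ = x ^ (g - 1) := by
  refine ⟨Real.rpow_le_rpow_of_exponent_ge hx hx1 hg,
    Real.rpow_le_rpow_of_exponent_ge hx hx1 (by linarith), ?_, ?_, ?_⟩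
  · have := Real.rpow_le_rpow_of_exponent_ge hx hx1 (show g - 1 ≤ 0 by linarith)
    rwa [Real.rpow_zero] at this
  · have := Real.rpow_le_rpow_of_exponent_ge hx hx1 hg1
    rwa [Real.rpow_one] at this
  · rw [Real.rpow_sub hx, Real.rpow_one, div_eq_mul_inv]

theorem norm_dpow_le (k : ℕ) {s : ℂ} (hs : ‖s‖ ≤ 1) : ‖dpow k s‖ ≤ k := by
  refine ContinuousLinearMap.opNorm_le_bound _ (by positivity) fun v => ?_
  rw [dpow_apply, norm_mul, norm_mul, norm_pow, Complex.norm_natCast]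
  have h1 : ‖s‖ ^ (k - 1) ≤ 1 := pow_le_one₀ (norm_nonneg _) hs
  have h2 : (k : ℝ) * ‖s‖ ^ (k - 1) ≤ k * 1 := mul_le_mul_of_nonneg_left h1 (by positivity)
  rw [mul_one] at h2
  exact mul_le_mul_of_nonneg_right h2 (norm_nonneg _)

/-- (s̄ / s) ^ n  -/
theorem twist_deriv (n : ℕ) {s : ℂ} (hs : s ≠ 0) : ∃ T : ℂ →L[ℝ] ℂ,
    HasFDerivAt (fun s : ℂ => (starRingEnd ℂ s / s) ^ n) T s ∧ ‖T‖ ≤ 2 * n * ‖s‖⁻¹ := by
  have hn : ‖starRingEnd ℂ s / s‖ = 1 := by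
    rw [norm_div, Complex.norm_conj, div_self (norm_ne_zero_iff.2 hs)]
  have h1 : HasFDerivAt (fun s : ℂ => starRingEnd ℂ s) (Complex.conjCLE : ℂ →L[ℝ] ℂ) s :=
    Complex.conjCLE.hasFDerivAt
  have h2 : HasFDerivAt (fun s : ℂ => s⁻¹)
      ((ContinuousLinearMap.toSpanSingleton ℂ (-(s ^ 2)⁻¹)).restrictScalars ℝ) s :=
    (hasDerivAt_inv hs).hasFDerivAt.restrictScalars ℝ
  have h3 := h1.fun_mul h2
  set T0 : ℂ →L[ℝ] ℂ := starRingEnd ℂ s • (ContinuousLinearMap.toSpanSingleton ℂ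
    (-(s ^ 2)⁻¹)).restrictScalars ℝ + s⁻¹ • (Complex.conjCLE : ℂ →L[ℝ] ℂ) with hT0
  have h4 : HasFDerivAt (fun s : ℂ => starRingEnd ℂ s / s) T0 s := by
    simpa only [div_eq_mul_inv] using h3
  have hb : ‖T0‖ ≤ 2 * ‖s‖⁻¹ := by
    refine ContinuousLinearMap.opNorm_le_bound _ (by positivity) fun v => ?_
    have e : T0 v = starRingEnd ℂ s * (v * -(s ^ 2)⁻¹) + s⁻¹ * starRingEnd ℂ v := by
      simp [hT0]
    rw [e]
    refine (norm_add_le _ _).trans (le_of_eq ?_)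
    rw [norm_mul, norm_mul, norm_mul, norm_neg, norm_inv, norm_inv, norm_pow, Complex.norm_conj,
      Complex.norm_conj]
    have : ‖s‖ ≠ 0 := norm_ne_zero_iff.2 hs
    field_simp
    norm_num
  have h5 : HasFDerivAt (fun s : ℂ => (starRingEnd ℂ s / s) ^ n) ((dpow n (starRingEnd ℂ s / s)).comp T0) s :=
    HasFDerivAt.comp (f := fun s : ℂ => starRingEnd ℂ s / s) (g := fun x : ℂ => x ^ n) s
      (pow_hasFDerivAt n (starRingEnd ℂ s / s)) h4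
  refine ⟨_, h5, ?_⟩
  refine (ContinuousLinearMap.opNorm_comp_le _ _).trans ?_
  refine (mul_le_mul (norm_dpow_le n hn.le) hb (norm_nonneg _) (by positivity)).trans ?_
  linarith

section

variable {D : Data} {S : ICur D} {b : Box D} {ρ : ℝ} {N : ℕ} {Y P : ℂ → Fin N → ℂ}
  {R : Measure (ℂ × ℂ)} {δ : ℝ} {L : ℕ} {k μ : Fin L → ℕ} {W : Fin L → ℂ → ℂ}

/-- the closed unit polydisc -/
def K1 : Set (ℂ × ℂ) := closedBall (0 : ℂ) 1 ×ˢ closedBall (0 : ℂ) 1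

theorem K1_compact : IsCompact K1 := (isCompact_closedBall _ _).prod (isCompact_closedBall _ _)

theorem K1_sub : K1 ⊆ PD 2 :=
  prod_mono (closedBall_subset_ball (by norm_num)) (closedBall_subset_ball (by norm_num))

theorem K1_convex : Convex ℝ K1 := (convex_closedBall _ _).prod (convex_closedBall _ _)

theorem smooth_bd {E : Type*} [NormedAddCommGroup E] [NormedSpace ℝ E] {f : ℂ × ℂ → E}
    (hf : ContDiffOn ℝ ∞ f (PD 2)) : ∃ C : ℝ, 0 ≤ C ∧ ∀ p ∈ K1, ‖fderiv ℝ f p‖ ≤ C := by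
  have ho : IsOpen (PD 2) := isOpen_ball.prod isOpen_ball
  have hc1 : ContinuousOn (fderiv ℝ f) (PD 2) :=
    (hf.of_le (by simp) : ContDiffOn ℝ 1 f (PD 2)).continuousOn_fderiv_of_isOpen ho le_rfl
  obtain ⟨C, hC⟩ := K1_compact.exists_bound_of_continuousOn (hc1.mono K1_sub)
  have h0 : (0 : ℂ × ℂ) ∈ K1 := by simp [K1]
  exact ⟨C, (norm_nonneg _).trans (hC 0 h0), hC⟩

theorem Pui.mem_K1 (h : Pui b.m b.A Y δ k μ W) (hb : ∀ z i, ‖Y z i‖ ≤ ρ) (hρ : ρ < 1)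
    (hδ : δ ≤ 1) (l : Fin L) {s : ℂ} (hs : s ∈ Up (k l) δ) : (s ^ k l, W l s) ∈ K1 := by
  rw [K1, mem_prod, mem_closedBall_zero_iff, mem_closedBall_zero_iff, norm_pow]
  have h1 : ‖s‖ ^ k l < δ := hs.1
  have h2 := h.W_le hb l hs.2 hs.1
  exact ⟨by linarith, by linarith⟩

theorem ball_Up {k : ℕ} (hk : 1 ≤ k) (hδ : δ ≤ 1) : ball (0 : ℂ) δ \ {0} ⊆ Up k δ := by
  intro s hs
  refine ⟨?_, hs.2⟩
  have h1 : ‖s‖ < δ := mem_ball_zero_iff.1 hs.1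
  have h2 : ‖s‖ ^ k ≤ ‖s‖ ^ 1 := pow_le_pow_of_le_one (norm_nonneg _) (by linarith) hk
  rw [pow_one] at h2
  exact h2.trans_lt h1

/-- the Beltrami coefficient of a branch -/
def bel (b : Box D) (k : ℕ) (W : ℂ → ℂ) (s : ℂ) : ℂ :=
  b.m (s ^ k, W s) * (starRingEnd ℂ s / s) ^ (k - 1)

/-- the growth condition on the branches -/
def Gr (δ : ℝ) (k : Fin L → ℕ) (W : Fin L → ℂ → ℂ) (C γ : ℝ) : Prop :=
  ∀ l s, s ≠ 0 → ‖s‖ ^ k l < δ → ‖W l s - W l 0‖ ≤ C * ‖s‖ ^ γ ∧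
      ‖fderiv ℝ (W l) s‖ ≤ C * ‖s‖ ^ (γ - 1)

theorem Pui.diff (h : Pui b.m b.A Y δ k μ W) (l : Fin L) {s : ℂ} (hs : s ∈ Up (k l) δ) :
    HasFDerivAt (fun s => (s ^ k l, W l s)) ((dpow (k l) s).prod (fderiv ℝ (W l) s)) s := by
  have h2 : DifferentiableAt ℝ (W l) s :=
    ((h.smooth l).contDiffAt ((Up_open _ _).mem_nhds hs)).differentiableAt (by simp)
  exact (pow_hasFDerivAt (k l) s).prodMk h2.hasFDerivAt

theorem Pui.bel_smooth (h : Pui b.m b.A Y δ k μ W) (hb : ∀ z i, ‖Y z i‖ ≤ ρ) (hρ : ρ < 1)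
    (hδ : δ ≤ 1) (l : Fin L) : ContDiffOn ℝ ∞ (bel b (k l) (W l)) (Up (k l) δ) := by
  have h1 : ContDiffOn ℝ ∞ (fun s => b.m (s ^ k l, W l s)) (Up (k l) δ) := by
    refine b.m_smooth.comp (ContDiffOn.prodMk ?_ (h.smooth l)) fun s hs => h.mem_PD hb hρ hδ l hs
    exact (contDiff_id.pow _).contDiffOn
  have h2 : ContDiffOn ℝ ∞ (fun s : ℂ => starRingEnd ℂ s * s⁻¹) (Up (k l) δ) := by
    refine ContDiffOn.mul ?_ (contDiffOn_id.inv fun s hs => hs.2)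
    exact Complex.conjCLE.contDiff.contDiffOn
  refine (h1.mul (h2.pow (k l - 1))).congr fun s _ => ?_
  simp [bel, div_eq_mul_inv]

theorem Pui.bel_bound (h : Pui b.m b.A Y δ k μ W) (hb : ∀ z i, ‖Y z i‖ ≤ ρ) (hρ : ρ < 1)
    (hδ : δ ≤ 1) {C γ g : ℝ} (hgr : Gr δ k W C γ) (hgγ : g ≤ γ) (hg1 : g ≤ 1)
    (hm0 : b.m (0, 0) = 0) (l : Fin L) (hl : W l 0 = 0) :
    ∃ C' : ℝ, ∀ s ∈ ball (0 : ℂ) δ \ {0}, ‖bel b (k l) (W l) s‖ ≤ C' * ‖s‖ ^ g ∧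
      ‖fderiv ℝ (bel b (k l) (W l)) s‖ ≤ C' * ‖s‖ ^ (g - 1) := by
  have ho : IsOpen (PD 2) := isOpen_ball.prod isOpen_ball
  obtain ⟨Cm, hCm0, hCm⟩ := smooth_bd b.m_smooth
  have h00 : ((0 : ℂ), (0 : ℂ)) ∈ K1 := by simp [K1]
  have hlip : ∀ p ∈ K1, ‖b.m p‖ ≤ Cm * ‖p‖ := by
    intro p hp
    have := K1_convex.norm_image_sub_le_of_norm_fderiv_le (f := b.m) (𝕜 := ℝ)
      (fun x hx => (b.m_smooth.contDiffAt (ho.mem_nhds (K1_sub hx))).differentiableAt (by simp))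
      hCm h00 hp
    rw [hm0, sub_zero] at this
    refine this.trans (le_of_eq ?_)
    congr 2
    simp
  set K : ℝ := |C| with hK
  have hK0 : 0 ≤ K := abs_nonneg _
  have hkn : (0 : ℝ) ≤ (k l : ℝ) := by positivity
  refine ⟨Cm * (1 + K) + (Cm * (k l + K) + Cm * (1 + K) * (2 * k l)), fun s hs => ?_⟩
  have hs0 : s ≠ 0 := hs.2
  have hsU := ball_Up (h.one_k l) hδ hs
  have hs1 : ‖s‖ ≤ 1 := (mem_ball_zero_iff.1 hs.1).le.trans hδ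
  have hsp : 0 < ‖s‖ := norm_pos_iff.2 hs0
  obtain ⟨r1, r2, r3, r4, r5⟩ := rpow_aux hsp hs1 hgγ hg1
  have hp0 : 0 ≤ ‖s‖ ^ g := by positivity
  have hp1 : 0 ≤ ‖s‖ ^ (g - 1) := by positivity
  obtain ⟨w1, w2⟩ := hgr l s hs0 hsU.1
  rw [hl, sub_zero] at w1
  have w1' : ‖W l s‖ ≤ K * ‖s‖ ^ g :=
    w1.trans (mul_le_mul (le_abs_self C) r1 (by positivity) hK0)
  have w2' : ‖fderiv ℝ (W l) s‖ ≤ K * ‖s‖ ^ (g - 1) :=
    w2.trans (mul_le_mul (le_abs_self C) r2 (by positivity) hK0)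
  have hmem := h.mem_K1 hb hρ hδ l hsU
  have hpk : ‖s ^ k l‖ ≤ ‖s‖ ^ g := by
    rw [norm_pow]
    have : ‖s‖ ^ k l ≤ ‖s‖ ^ 1 := pow_le_pow_of_le_one (norm_nonneg _) hs1 (h.one_k l)
    rw [pow_one] at this
    exact this.trans r4
  have hM : ‖b.m (s ^ k l, W l s)‖ ≤ Cm * (1 + K) * ‖s‖ ^ g := by
    refine (hlip _ hmem).trans ?_
    rw [mul_assoc]
    refine mul_le_mul_of_nonneg_left ?_ hCm0
    rw [Prod.norm_def, max_le_iff]
    have : 0 ≤ K * ‖s‖ ^ g := by positivity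
    constructor
    · simp only; linarith
    · simp only; linarith
  have htw : ‖(starRingEnd ℂ s / s) ^ (k l - 1)‖ = 1 := by
    rw [norm_pow, norm_div, Complex.norm_conj, div_self hsp.ne', one_pow]
  constructor
  · rw [bel, norm_mul, htw, mul_one]
    refine hM.trans (mul_le_mul_of_nonneg_right ?_ hp0)
    have : 0 ≤ Cm * (k l + K) + Cm * (1 + K) * (2 * k l) := by positivity
    linarith
  · obtain ⟨T, hT, hTn⟩ := twist_deriv (k l - 1) hs0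
    have hd : HasFDerivAt (fun s => b.m (s ^ k l, W l s))
        ((fderiv ℝ b.m (s ^ k l, W l s)).comp ((dpow (k l) s).prod (fderiv ℝ (W l) s))) s :=
      HasFDerivAt.comp s (((b.m_smooth.contDiffAt
        (ho.mem_nhds (K1_sub hmem))).differentiableAt (by simp)).hasFDerivAt) (h.diff l hsU)
    have hf := (hd.fun_mul hT).fderiv
    have hfe : fderiv ℝ (bel b (k l) (W l)) s =
        b.m (s ^ k l, W l s) • T + (starRingEnd ℂ s / s) ^ (k l - 1) •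
        ((fderiv ℝ b.m (s ^ k l, W l s)).comp ((dpow (k l) s).prod (fderiv ℝ (W l) s))) := hf
    rw [hfe]
    refine (norm_add_le _ _).trans ?_
    have n1 : ‖b.m (s ^ k l, W l s) • T‖ ≤ Cm * (1 + K) * (2 * k l) * ‖s‖ ^ (g - 1) := by
      rw [norm_smul]
      have hk1 : ((k l - 1 : ℕ) : ℝ) ≤ k l := by exact_mod_cast Nat.sub_le _ _
      have hT2 : ‖T‖ ≤ 2 * k l * ‖s‖⁻¹ := hTn.trans (mul_le_mul_of_nonneg_right
        (mul_le_mul_of_nonneg_left hk1 (by norm_num)) (by positivity))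
      refine (mul_le_mul hM hT2 (norm_nonneg _) (by positivity)).trans (le_of_eq ?_)
      rw [← r5]; ring
    have n2 : ‖(starRingEnd ℂ s / s) ^ (k l - 1) • ((fderiv ℝ b.m (s ^ k l, W l s)).comp
        ((dpow (k l) s).prod (fderiv ℝ (W l) s)))‖ ≤ Cm * (k l + K) * ‖s‖ ^ (g - 1) := by
      rw [norm_smul, htw, one_mul]
      refine (ContinuousLinearMap.opNorm_comp_le _ _).trans ?_
      rw [mul_assoc]
      refine mul_le_mul (hCm _ hmem) ?_ (norm_nonneg _) hCm0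
      refine ContinuousLinearMap.opNorm_le_bound _ (by positivity) fun v => ?_
      rw [ContinuousLinearMap.prod_apply, Prod.norm_def, max_le_iff]
      have nv := norm_nonneg v
      have h5 := (dpow (k l) s).le_of_opNorm_le (norm_dpow_le (k l) hs1) v
      have h6 := (fderiv ℝ (W l) s).le_of_opNorm_le w2' v
      have h7 : (k l : ℝ) ≤ (k l + K) * ‖s‖ ^ (g - 1) := by
        have : (k l + K) * 1 ≤ (k l + K) * ‖s‖ ^ (g - 1) :=
          mul_le_mul_of_nonneg_left r3 (by positivity)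
        linarith
      have h8 : K * ‖s‖ ^ (g - 1) ≤ (k l + K) * ‖s‖ ^ (g - 1) :=
        mul_le_mul_of_nonneg_right (by linarith) hp1
      exact ⟨h5.trans (mul_le_mul_of_nonneg_right h7 nv),
        h6.trans (mul_le_mul_of_nonneg_right h8 nv)⟩
    have n3 : 0 ≤ Cm * (1 + K) * ‖s‖ ^ (g - 1) := by positivity
    nlinarith [n1, n2, n3]

end

end Vale.Agent.P247.H620
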