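import Vale.Agent.P247.H620.LSX
import Vale.Agent.P247.H620.LBelt
import Vale.Agent.P247.H734.JReg

/-!
# P247, LSX: the local structure theorem, unconditional
-/

noncomputable section

namespace Vale.Agent.P247.H620

open Vale.Agent.P247.H574

/-- **LSX** -/
theorem LSX_thm : LSX_statement := LSX CONF H734.JREG

end Vale.Agent.P247.H620
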