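import Mathlib

/-!
# P247, LSX: roots and the change of variables `z = s ^ k`
-/

open scoped ContDiff Topology
open Set MeasureTheory Filter Metric

noncomputable section

namespace Vale.Agent.P247.H620

/-- the determinant of a real linear map of the plane -/
theorem det_eq (L : ℂ →L[ℝ] ℂ) :
    L.det = (L 1).re * (L Complex.I).im - (L 1).im * (L Complex.I).re := by
  have h1 : L.det = LinearMap.det (L : ℂ →ₗ[ℝ] ℂ) := rfl
  rw [h1, ← LinearMap.det_toMatrix Complex.basisOneI, Matrix.det_fin_two]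
  simp [LinearMap.toMatrix_apply]
  ring

/-- a real linear map of the plane -/
theorem rl_decomp (L : ℂ →L[ℝ] ℂ) (w : ℂ) :
    L w = (1 / 2 : ℂ) * (L 1 - Complex.I * L Complex.I) * w +
      (1 / 2 : ℂ) * (L 1 + Complex.I * L Complex.I) * starRingEnd ℂ w := by
  have e1 : w = w.re • (1 : ℂ) + w.im • Complex.I := by simp
  conv_lhs => rw [e1, map_add, map_smul, map_smul, Complex.real_smul, Complex.real_smul]
  have e2 : starRingEnd ℂ w = (w.re : ℂ) - w.im * Complex.I := by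
    apply Complex.ext <;> simp
  rw [e2]
  conv_rhs => rw [← Complex.re_add_im w]
  simp only [Complex.add_re, Complex.ofReal_re, Complex.mul_re, Complex.I_re, mul_zero,
    Complex.ofReal_im, Complex.I_im, mul_one, sub_self, add_zero, Complex.add_im, Complex.mul_im,
    zero_add]
  linear_combination ((w.im : ℂ) * L Complex.I) * Complex.I_mul_I

/-- the determinant of `w ↦ a w + b w̄` -/
theorem det_rl (L : ℂ →L[ℝ] ℂ) {a b : ℂ} (h : ∀ w, L w = a * w + b * starRingEnd ℂ w) :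
    L.det = ‖a‖ ^ 2 - ‖b‖ ^ 2 := by
  rw [det_eq, h, h, ← Complex.normSq_eq_norm_sq, ← Complex.normSq_eq_norm_sq]
  simp only [Complex.normSq_apply, map_one, Complex.conj_I, mul_one, Complex.add_re,
    Complex.add_im, Complex.mul_re, Complex.mul_im, Complex.I_re, Complex.I_im, Complex.neg_re,
    Complex.neg_im]
  ring

/-! ## roots -/

/-- the principal root -/
def rt (k : ℕ) (z : ℂ) : ℂ := z ^ ((k : ℂ)⁻¹)

theorem rt_pow {k : ℕ} (hk : 1 ≤ k) (z : ℂ) : rt k z ^ k = z :=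
  Complex.cpow_nat_inv_pow z (by omega)

theorem rt_ne {k : ℕ} (hk : 1 ≤ k) {z : ℂ} (hz : z ≠ 0) : rt k z ≠ 0 := by
  intro h
  have := rt_pow hk z
  rw [h, zero_pow (by omega)] at this
  exact hz this.symm

theorem rt_measurable (k : ℕ) : Measurable (rt k) := measurable_id.pow_const _

/-- the root of unity -/
def om (k j : ℕ) : ℂ := Complex.exp (2 * Real.pi * Complex.I * j / k)

theorem om_eq (k j : ℕ) : om k j = Complex.exp (2 * Real.pi * Complex.I / k) ^ j := by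
  rw [om, ← Complex.exp_nat_mul]
  congr 1
  ring

theorem om_pow {k : ℕ} (hk : 1 ≤ k) (j : ℕ) : om k j ^ k = 1 := by
  have h := Complex.isPrimitiveRoot_exp k (by omega)
  rw [om_eq, ← pow_mul, mul_comm j k, pow_mul, h.pow_eq_one, one_pow]

theorem om_ne (k j : ℕ) : om k j ≠ 0 := Complex.exp_ne_zero _

theorem om_inj {k i j : ℕ} (hi : i < k) (hj : j < k) (h : om k i = om k j) : i = j := by
  have hp := Complex.isPrimitiveRoot_exp k (by omega)
  rw [om_eq, om_eq] at h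
  exact hp.pow_inj hi hj h

/-- all roots -/
theorem exists_om {k : ℕ} (hk : 1 ≤ k) {s t z : ℂ} (hz : z ≠ 0) (hs : s ^ k = z) (ht : t ^ k = z) :
    ∃ j < k, s = om k j * t := by
  have : NeZero k := ⟨by omega⟩
  have ht0 : t ≠ 0 := by
    rintro rfl
    rw [zero_pow (by omega)] at ht
    exact hz ht.symm
  have h1 : (s / t) ^ k = 1 := by rw [div_pow, hs, ht, div_self hz]
  obtain ⟨j, hj, h2⟩ := (Complex.isPrimitiveRoot_exp k (by omega)).eq_pow_of_pow_eq_one h1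
  exact ⟨j, hj, by rw [om_eq, h2]; field_simp⟩

/-! ## local roots -/

/-- the local root equal to `s₀` at `s₀ ^ k` -/
def lrt (k : ℕ) (s₀ z : ℂ) : ℂ := s₀ * rt k (z / s₀ ^ k)

theorem lrt_pow {k : ℕ} (hk : 1 ≤ k) {s₀ : ℂ} (h0 : s₀ ≠ 0) (z : ℂ) : lrt k s₀ z ^ k = z := by
  rw [lrt, mul_pow, rt_pow hk, mul_div_cancel₀ _ (pow_ne_zero _ h0)]

theorem lrt_self {k : ℕ} {s₀ : ℂ} (h0 : s₀ ≠ 0) : lrt k s₀ (s₀ ^ k) = s₀ := by
  rw [lrt, div_self (pow_ne_zero _ h0), rt, Complex.one_cpow, mul_one]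

theorem div_mem_slit {z z₀ : ℂ} (h : z ∈ ball z₀ ‖z₀‖) : z / z₀ ∈ Complex.slitPlane := by
  have h0 : z₀ ≠ 0 := by
    rintro rfl
    rw [norm_zero, ball_zero] at h
    exact h
  apply Complex.ball_one_subset_slitPlane
  rw [mem_ball, dist_eq_norm] at h ⊢
  have e1 : z / z₀ - 1 = (z - z₀) / z₀ := by field_simp
  rw [e1, norm_div, div_lt_one (norm_pos_iff.2 h0)]
  exact h

theorem lrt_hasDerivAt {k : ℕ} (hk : 1 ≤ k) {s₀ z : ℂ} (h : z ∈ ball (s₀ ^ k) ‖s₀ ^ k‖) :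
    HasDerivAt (lrt k s₀) ((k * lrt k s₀ z ^ (k - 1))⁻¹) z := by
  have h0 : s₀ ^ k ≠ 0 := by
    intro h0
    rw [h0, norm_zero, ball_zero] at h
    exact h
  have h00 : s₀ ≠ 0 := fun h1 => h0 (by rw [h1, zero_pow (by omega)])
  have hz0 : z ≠ 0 := by
    rintro rfl
    rw [mem_ball, dist_eq_norm, zero_sub, norm_neg] at h
    exact lt_irrefl _ h
  have h1 : DifferentiableAt ℂ (lrt k s₀) z := by
    have h2 : DifferentiableAt ℂ (fun z : ℂ => z / s₀ ^ k) z := by fun_prop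
    exact (h2.cpow_const (div_mem_slit h)).const_mul s₀
  have h2 := (h1.hasDerivAt.pow k)
  have h3 : (fun z => lrt k s₀ z ^ k) = id := funext fun z => lrt_pow hk h00 z
  have h4 : HasDerivAt (fun z => lrt k s₀ z ^ k) 1 z := by rw [h3]; exact hasDerivAt_id z
  have h5 := h2.unique h4
  have h6 : lrt k s₀ z ≠ 0 := by
    intro h7
    have := lrt_pow hk h00 z
    rw [h7, zero_pow (by omega)] at this
    exact hz0 this.symm
  have h7 : (k : ℂ) * lrt k s₀ z ^ (k - 1) ≠ 0 :=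
    mul_ne_zero (Nat.cast_ne_zero.2 (by omega)) (pow_ne_zero _ h6)
  have h8 : deriv (lrt k s₀) z = (k * lrt k s₀ z ^ (k - 1))⁻¹ := eq_inv_of_mul_eq_one_right h5
  rw [← h8]
  exact h1.hasDerivAt

theorem lrt_smooth {k : ℕ} (hk : 1 ≤ k) (s₀ : ℂ) :
    ContDiffOn ℝ ∞ (lrt k s₀) (ball (s₀ ^ k) ‖s₀ ^ k‖) := by
  have h : DifferentiableOn ℂ (lrt k s₀) (ball (s₀ ^ k) ‖s₀ ^ k‖) := fun z hz =>
    (lrt_hasDerivAt hk hz).differentiableAt.differentiableWithinAt
  exact (h.contDiffOn isOpen_ball).restrict_scalars ℝ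

/-! ## the change of variables -/

/-- the derivative of `s ↦ s ^ k` -/
def dpow (k : ℕ) (s : ℂ) : ℂ →L[ℝ] ℂ :=
  (ContinuousLinearMap.toSpanSingleton ℂ ((k : ℂ) * s ^ (k - 1))).restrictScalars ℝ

theorem dpow_apply (k : ℕ) (s w : ℂ) : dpow k s w = (k : ℂ) * s ^ (k - 1) * w := by
  simp [dpow, mul_comm]

theorem det_pow (k : ℕ) (s : ℂ) : (dpow k s).det = ‖(k : ℂ) * s ^ (k - 1)‖ ^ 2 := by
  rw [det_rl (a := (k : ℂ) * s ^ (k - 1)) (b := 0)]
  · simp
  · intro w; rw [dpow_apply]; simp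

/-- the sector -/
def sec (k j : ℕ) (δ : ℝ) : Set ℂ := {s | s ≠ 0 ∧ ‖s‖ ^ k < δ ∧ om k j * rt k (s ^ k) = s}

theorem sec_meas (k j : ℕ) (δ : ℝ) : MeasurableSet (sec k j δ) := by
  have h1 : MeasurableSet {s : ℂ | s ≠ 0} := (measurableSet_singleton 0).compl
  have h2 : MeasurableSet {s : ℂ | ‖s‖ ^ k < δ} :=
    measurableSet_lt (by fun_prop) measurable_const
  have h3 : MeasurableSet {s : ℂ | om k j * rt k (s ^ k) = s} :=
    measurableSet_eq_fun (((rt_measurable k).comp (by fun_prop)).const_mul _) measurable_id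
  exact h1.inter (h2.inter h3)

theorem sec_image {k : ℕ} (hk : 1 ≤ k) (j : ℕ) (δ : ℝ) :
    (fun s : ℂ => s ^ k) '' sec k j δ = ball 0 δ \ {0} := by
  ext z
  constructor
  · rintro ⟨s, ⟨h1, h2, h3⟩, rfl⟩
    refine ⟨?_, pow_ne_zero _ h1⟩
    rw [mem_ball_zero_iff, norm_pow]
    exact h2
  · rintro ⟨h1, h2⟩
    have h2' : z ≠ 0 := h2
    have h4 : (om k j * rt k z) ^ k = z := by rw [mul_pow, om_pow hk, rt_pow hk, one_mul]
    refine ⟨om k j * rt k z, ⟨?_, ?_, ?_⟩, h4⟩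
    · exact mul_ne_zero (om_ne _ _) (rt_ne hk h2')
    · rw [← norm_pow, h4]
      exact mem_ball_zero_iff.1 h1
    · rw [h4]

theorem sec_inj (k j : ℕ) (δ : ℝ) : InjOn (fun s : ℂ => s ^ k) (sec k j δ) := by
  intro s hs t ht h
  have h' : s ^ k = t ^ k := h
  rw [← hs.2.2, ← ht.2.2, h']

theorem sec_disj {k : ℕ} (hk : 1 ≤ k) {i j : ℕ} (hi : i < k) (hj : j < k) (δ : ℝ) (hij : i ≠ j) :
    Disjoint (sec k i δ) (sec k j δ) := by
  rw [Set.disjoint_left]
  intro s hs ht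
  have h1 := hs.2.2
  rw [← ht.2.2] at h1
  have h2 : om k j * rt k (s ^ k) = s := ht.2.2
  rw [h2] at h1
  have h3 : rt k (s ^ k) ≠ 0 := rt_ne hk (pow_ne_zero _ hs.1)
  have h4 : om k i * rt k (s ^ k) = om k j * rt k (s ^ k) := h1.trans h2.symm
  exact hij (om_inj hi hj (mul_right_cancel₀ h3 h4))

theorem sec_union {k : ℕ} (hk : 1 ≤ k) (δ : ℝ) :
    (⋃ j ∈ Finset.range k, sec k j δ) = {s | ‖s‖ ^ k < δ} \ {0} := by
  ext s
  simp only [mem_iUnion, Finset.mem_range, exists_prop]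
  constructor
  · rintro ⟨j, _, h1, h2, _⟩
    exact ⟨h2, h1⟩
  · rintro ⟨h1, h2⟩
    have h2' : s ≠ 0 := h2
    obtain ⟨j, hj, h3⟩ := exists_om hk (pow_ne_zero k h2') (s := s) rfl (rt_pow hk (s ^ k))
    exact ⟨j, hj, h2', h1, h3.symm⟩

theorem pow_hasFDerivAt (k : ℕ) (s : ℂ) : HasFDerivAt (fun s : ℂ => s ^ k) (dpow k s) s :=
  (hasDerivAt_pow k s).hasFDerivAt.restrictScalars ℝ

/-- the fibre integral -/
theorem fibre_integral {k : ℕ} (hk : 1 ≤ k) (δ : ℝ) (H : ℂ → ℝ)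
    (hH : ∀ j < k, IntegrableOn (fun z => H (om k j * rt k z)) (ball 0 δ)) :
    IntegrableOn (fun s => ‖(k : ℂ) * s ^ (k - 1)‖ ^ 2 * H s) {s | ‖s‖ ^ k < δ} ∧
    ∫ z in ball (0 : ℂ) δ, ∑ j ∈ Finset.range k, H (om k j * rt k z) =
      ∫ s in {s : ℂ | ‖s‖ ^ k < δ}, ‖(k : ℂ) * s ^ (k - 1)‖ ^ 2 * H s := by
  have h0 : (volume : Measure ℂ) {0} = 0 := measure_singleton 0
  have e1 : (ball (0 : ℂ) δ \ {0} : Set ℂ) =ᵐ[volume] ball 0 δ := sdiff_null_ae_eq_self h0
  have e2 : ({s : ℂ | ‖s‖ ^ k < δ} \ {0} : Set ℂ) =ᵐ[volume] {s | ‖s‖ ^ k < δ} :=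
    sdiff_null_ae_eq_self h0
  have cong : ∀ j, EqOn (fun s => |(dpow k s).det| • H (om k j * rt k (s ^ k))) (fun s => ‖(k : ℂ) * s ^ (k - 1)‖ ^ 2 * H s)
      (sec k j δ) := by
    intro j s hs
    have h1 : om k j * rt k (s ^ k) = s := hs.2.2
    simp only
    rw [det_pow, abs_of_nonneg (by positivity), h1, smul_eq_mul]
  have I1 : ∀ j < k, IntegrableOn (fun s => ‖(k : ℂ) * s ^ (k - 1)‖ ^ 2 * H s) (sec k j δ) := by
    intro j hj
    have h1 := (hH j hj).congr_set_ae e1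
    rw [← sec_image hk j δ, integrableOn_image_iff_integrableOn_abs_det_fderiv_smul volume
      (sec_meas k j δ) (fun s _ => (pow_hasFDerivAt k s).hasFDerivWithinAt) (sec_inj k j δ)] at h1
    exact h1.congr_fun (cong j) (sec_meas k j δ)
  have I2 : ∀ j < k, ∫ z in ball (0 : ℂ) δ, H (om k j * rt k z) =
      ∫ s in sec k j δ, ‖(k : ℂ) * s ^ (k - 1)‖ ^ 2 * H s := by
    intro j hj
    rw [← setIntegral_congr_set e1, ← sec_image hk j δ,
      integral_image_eq_integral_abs_det_fderiv_smul volume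
      (sec_meas k j δ) (fun s _ => (pow_hasFDerivAt k s).hasFDerivWithinAt) (sec_inj k j δ)]
    exact setIntegral_congr_fun (sec_meas k j δ) (cong j)
  have hdis : (↑(Finset.range k) : Set ℕ).Pairwise (Function.onFun Disjoint fun j => sec k j δ) := by
    intro i hi j hj hij
    exact sec_disj hk (Finset.mem_range.1 hi) (Finset.mem_range.1 hj) δ hij
  constructor
  · refine IntegrableOn.congr_set_ae ?_ e2.symm
    rw [← sec_union hk δ]
    exact integrableOn_finset_iUnion.2 fun j hj => I1 j (Finset.mem_range.1 hj)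
  · rw [integral_finsetSum _ fun j hj => hH j (Finset.mem_range.1 hj),
      ← setIntegral_congr_set e2, ← sec_union hk δ,
      integral_biUnion_finset _ (fun j _ => sec_meas k j δ) hdis
        (fun j hj => I1 j (Finset.mem_range.1 hj))]
    exact Finset.sum_congr rfl fun j hj => I2 j (Finset.mem_range.1 hj)

end Vale.Agent.P247.H620
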