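import Vale.Agent.P247.H620.LTan
import Vale.Agent.P247.H620.LRoot

/-!
# P247, LSX: the sheets of a multigraph with Puiseux structure
-/

open scoped ContDiff Topology
open Set MeasureTheory Filter Metric

noncomputable section

namespace Vale.Agent.P247.H620

open Vale.Agent.P247.H74 Vale.Agent.P247.H574

/-- the output of `PUI` -/
structure Pui {N : ℕ} (m A : ℂ × ℂ → ℂ) (Y : ℂ → Fin N → ℂ) (δ : ℝ) {L : ℕ} (k μ : Fin L → ℕ)
    (W : Fin L → ℂ → ℂ) : Prop where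
  one_k : ∀ l, 1 ≤ k l
  one_μ : ∀ l, 1 ≤ μ l
  cont : ∀ l, ContinuousOn (W l) {s | ‖s‖ ^ k l < δ}
  smooth : ∀ l, ContDiffOn ℝ ∞ (W l) ({s | ‖s‖ ^ k l < δ} \ {0})
  eq : ∀ l s, s ≠ 0 → ‖s‖ ^ k l < δ →
    dbar (W l) s = m (s ^ k l, W l s) * (starRingEnd ℂ s / s) ^ (k l - 1) * d1 (W l) s +
      A (s ^ k l, W l s) * k l * starRingEnd ℂ s ^ (k l - 1)
  inj : ∀ l l' s s', s ≠ 0 → ‖s‖ ^ k l < δ → s ^ k l = s' ^ k l' → W l s = W l' s' →
      l = l' ∧ s = s'
  sum : ∀ᵐ z ∂volume.restrict (ball (0 : ℂ) δ), ∀ s : Fin L → ℂ, (∀ l, s l ^ k l = z) →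
      ∀ g : ℂ → ℝ, ∑ i, g (Y z i) = ∑ l, (μ l : ℝ) * ∑ j ∈ Finset.range (k l),
        g (W l (om (k l) j * s l))

variable {N : ℕ} {m A : ℂ × ℂ → ℂ} {Y P : ℂ → Fin N → ℂ} {δ ρ : ℝ} {L : ℕ} {k μ : Fin L → ℕ}
  {W : Fin L → ℂ → ℂ}

theorem Pui.mono (h : Pui m A Y δ k μ W) {δ' : ℝ} (hδ : δ' ≤ δ) : Pui m A Y δ' k μ W where
  one_k := h.one_k
  one_μ := h.one_μ
  cont := fun l => (h.cont l).mono fun _ hs => lt_of_lt_of_le hs hδ
  smooth := fun l => (h.smooth l).mono fun _ hs => ⟨lt_of_lt_of_le hs.1 hδ, hs.2⟩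
  eq := fun l s h0 hs => h.eq l s h0 (hs.trans_le hδ)
  inj := fun l l' s s' h0 hs => h.inj l l' s s' h0 (hs.trans_le hδ)
  sum := ae_mono (Measure.restrict_mono (ball_subset_ball hδ) le_rfl) h.sum

theorem Pui.ae_all (h : Pui m A Y δ k μ W) : ∀ᵐ z ∂volume.restrict (ball (0 : ℂ) δ), z ≠ 0 ∧
    (∀ i, ∃ l s, s ^ k l = z ∧ Y z i = W l s) ∧ (∀ l s, s ^ k l = z → ∃ i, Y z i = W l s) := by
  have h0 : ∀ᵐ z ∂volume.restrict (ball (0 : ℂ) δ), z ≠ 0 :=
    ae_restrict_of_ae (by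
      rw [ae_iff]
      simp)
  filter_upwards [h.sum, h0] with z hz hz0
  have hr : ∀ l, rt (k l) z ^ k l = z := fun l => rt_pow (h.one_k l) z
  have hs := hz (fun l => rt (k l) z) hr
  refine ⟨hz0, fun i => ?_, fun l s hls => ?_⟩
  · by_contra hc
    push Not at hc
    have h1 := hs (fun y => if y = Y z i then 1 else 0)
    have h2 : ∑ l, (μ l : ℝ) * ∑ j ∈ Finset.range (k l),
        (if W l (om (k l) j * rt (k l) z) = Y z i then (1 : ℝ) else 0) = 0 := by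
      refine Finset.sum_eq_zero fun l _ => ?_
      rw [Finset.sum_eq_zero, mul_zero]
      intro j _
      rw [if_neg]
      intro h3
      exact hc l _ (by rw [mul_pow, om_pow (h.one_k l), one_mul, hr]) h3.symm
    rw [h2] at h1
    have h3 : (0 : ℝ) < ∑ j, (if Y z j = Y z i then (1 : ℝ) else 0) := by
      refine lt_of_lt_of_le one_pos ?_
      refine le_trans ?_ (Finset.single_le_sum (f := fun j => if Y z j = Y z i then (1 : ℝ) else 0)
        (fun j _ => by positivity) (Finset.mem_univ i))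
      simp
    rw [h1] at h3
    exact lt_irrefl _ h3
  · by_contra hc
    push Not at hc
    have h1 := hs (fun y => if y = W l s then 1 else 0)
    have h2 : ∑ i, (if Y z i = W l s then (1 : ℝ) else 0) = 0 :=
      Finset.sum_eq_zero fun i _ => if_neg (hc i)
    rw [h2] at h1
    obtain ⟨j, hj, h3⟩ := exists_om (h.one_k l) hz0 hls (hr l)
    have h4 : (0 : ℝ) < (μ l : ℝ) * ∑ j ∈ Finset.range (k l),
        (if W l (om (k l) j * rt (k l) z) = W l s then (1 : ℝ) else 0) := by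
      apply mul_pos
      · exact_mod_cast h.one_μ l
      · refine lt_of_lt_of_le one_pos ?_
        refine le_trans ?_ (Finset.single_le_sum
          (f := fun j => if W l (om (k l) j * rt (k l) z) = W l s then (1 : ℝ) else 0)
          (fun j _ => by positivity) (Finset.mem_range.2 hj))
        rw [← h3]; simp
    have h5 := Finset.single_le_sum (f := fun l' => (μ l' : ℝ) * ∑ j ∈ Finset.range (k l'),
        (if W l' (om (k l') j * rt (k l') z) = W l s then (1 : ℝ) else 0))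
        (fun l' _ => by positivity) (Finset.mem_univ l)
    rw [← h1] at h5
    linarith

/-- values of the sheets -/
theorem Pui.W_le (h : Pui m A Y δ k μ W) (hb : ∀ z i, ‖Y z i‖ ≤ ρ) (l : Fin L) {s : ℂ}
    (h0 : s ≠ 0) (hs : ‖s‖ ^ k l < δ) : ‖W l s‖ ≤ ρ := by
  by_contra hc
  rw [not_le] at hc
  have hk := h.one_k l
  have h00 : s ^ k l ≠ 0 := pow_ne_zero _ h0
  -- near `s ^ k` the sheet through `W l s` is large
  have hcW : ContinuousAt (W l) (lrt (k l) s (s ^ k l)) := by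
    rw [lrt_self h0]
    have ho : IsOpen {s : ℂ | ‖s‖ ^ k l < δ} := isOpen_lt (by fun_prop) continuous_const
    exact (h.cont l).continuousAt (ho.mem_nhds hs)
  have hmem : s ^ k l ∈ ball (s ^ k l) ‖s ^ k l‖ := mem_ball_self (norm_pos_iff.2 h00)
  have hcl : ContinuousAt (lrt (k l) s) (s ^ k l) :=
    (lrt_hasDerivAt hk hmem).continuousAt
  have hcc : ContinuousAt (fun z => ‖W l (lrt (k l) s z)‖) (s ^ k l) :=
    (ContinuousAt.comp (f := lrt (k l) s) (g := W l) hcW hcl).norm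
  have h1 : ∀ᶠ z in 𝓝 (s ^ k l), ρ < ‖W l (lrt (k l) s z)‖ := by
    refine hcc.eventually (lt_mem_nhds ?_)
    show ρ < ‖W l (lrt (k l) s (s ^ k l))‖
    rw [lrt_self h0]; exact hc
  have h2 : ∀ᶠ z in 𝓝 (s ^ k l), z ∈ ball (0 : ℂ) δ := by
    refine isOpen_ball.mem_nhds ?_
    rw [mem_ball_zero_iff, norm_pow]; exact hs
  obtain ⟨r, hr, h3⟩ := Metric.eventually_nhds_iff_ball.1 (h1.and h2)
  have h4 : ∀ᵐ z ∂volume.restrict (ball (s ^ k l) r), False := by
    have h5 := ae_mono (Measure.restrict_mono (fun z hz => (h3 z hz).2 :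
      ball (s ^ k l) r ⊆ ball 0 δ) le_rfl) h.ae_all
    filter_upwards [h5, ae_restrict_mem measurableSet_ball] with z hz hzb
    obtain ⟨i, hi⟩ := hz.2.2 l (lrt (k l) s z) (lrt_pow hk h0 z)
    have h6 := (h3 z hzb).1
    rw [← hi] at h6
    exact absurd (hb z i) (not_le.2 h6)
  have h5 : volume.restrict (ball (s ^ k l) r) = 0 := ae_eq_bot.1 (eventually_false_iff_eq_bot.1 h4)
  exact (measure_ball_pos volume (s ^ k l) hr).ne' (Measure.restrict_eq_zero.1 h5)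

theorem finite_idx (hk : ∀ l : Fin L, 1 ≤ k l) (z₀ : ℂ) :
    Finite {q : Fin L × ℂ // q.2 ^ k q.1 = z₀} := by
  have h1 : ∀ l : Fin L, {s : ℂ | s ^ k l = z₀}.Finite := by
    intro l
    refine (Polynomial.nthRoots (k l) z₀).toFinset.finite_toSet.subset fun s hs => ?_
    have hs' : s ^ k l = z₀ := hs
    simp only [Finset.mem_coe, Multiset.mem_toFinset]
    exact (Polynomial.mem_nthRoots (by have := hk l; omega)).2 hs'
  have h2 : {q : Fin L × ℂ | q.2 ^ k q.1 = z₀}.Finite := by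
    refine (finite_iUnion fun l => (finite_singleton l).prod (h1 l)).subset fun q hq => ?_
    rw [mem_iUnion]
    exact ⟨q.1, rfl, hq⟩
  exact h2.to_subtype

/-- `∂` of a composition with a holomorphic function -/
theorem d1_comp {V f : ℂ → ℂ} {z f' : ℂ} (hV : DifferentiableAt ℝ V (f z))
    (hf : HasDerivAt f f' z) : d1 (fun w => V (f w)) z = d1 V (f z) * f' := by
  have h1 : HasFDerivAt (fun w => V (f w))
      ((fderiv ℝ V (f z)).comp ((ContinuousLinearMap.toSpanSingleton ℂ f').restrictScalars ℝ)) z :=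
    hV.hasFDerivAt.comp z (hf.hasFDerivAt.restrictScalars ℝ)
  rw [d1, d1, h1.fderiv]
  simp only [ContinuousLinearMap.comp_apply, ContinuousLinearMap.coe_restrictScalars',
    ContinuousLinearMap.toSpanSingleton_apply, smul_eq_mul, one_mul]
  rw [rl_decomp (fderiv ℝ V (f z)) f', rl_decomp (fderiv ℝ V (f z)) (Complex.I * f')]
  simp only [map_mul, Complex.conj_I]
  linear_combination (-(1 / 4 : ℂ) * f' * (fderiv ℝ V (f z) 1 - Complex.I * fderiv ℝ V (f z)
    Complex.I) + (1 / 4 : ℂ) * starRingEnd ℂ f' * (fderiv ℝ V (f z) 1 + Complex.I * fderiv ℝ V (f z)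
    Complex.I)) * Complex.I_mul_I

/-- locally, `P` is the derivative of the sheet -/
theorem Pui.P_loc (h : Pui m A Y δ k μ W) (hM : MG N m A ρ Y P) (hδ : δ ≤ 1) {z₀ : ℂ}
    (h0 : z₀ ≠ 0) (hz : ‖z₀‖ < δ) : ∃ r > 0, ∀ᵐ z ∂volume.restrict (ball z₀ r),
      ∀ l s, s ^ k l = z → ∀ i, Y z i = W l s → P z i = d1 (W l) s * (k l * s ^ (k l - 1))⁻¹ := by
  let ι := {q : Fin L × ℂ // q.2 ^ k q.1 = z₀}
  have hfin : Finite ι := finite_idx h.one_k z₀
  let V : ι → ℂ → ℂ := fun q z => W q.1.1 (lrt (k q.1.1) q.1.2 z)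
  have hq0 : ∀ q : ι, q.1.2 ≠ 0 := by
    intro q hq
    have := q.2
    rw [hq, zero_pow (by have := h.one_k q.1.1; omega)] at this
    exact h0 this.symm
  have hVz : ∀ q : ι, V q z₀ = W q.1.1 q.1.2 := by
    intro q
    have e := lrt_self (k := k q.1.1) (hq0 q)
    rw [q.2] at e
    show W q.1.1 (lrt (k q.1.1) q.1.2 z₀) = _
    rw [e]
  have hne : ∀ q q' : ι, q ≠ q' → V q z₀ ≠ V q' z₀ := by
    intro q q' hqq' hV
    rw [hVz, hVz] at hV
    have h1 : ‖q.1.2‖ ^ k q.1.1 < δ := by rw [← norm_pow, q.2]; exact hz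
    have h2 := h.inj q.1.1 q'.1.1 q.1.2 q'.1.2 (hq0 q) h1 (q.2.trans q'.2.symm) hV
    exact hqq' (Subtype.ext (Prod.ext h2.1 h2.2))
  -- smoothness
  have hsm : ∀ q : ι, ContDiffOn ℝ ∞ (V q) (ball z₀ ‖z₀‖ ∩ ball 0 δ) := by
    intro q
    refine (h.smooth q.1.1).comp ?_ fun z hz => ⟨?_, ?_⟩
    · have := lrt_smooth (h.one_k q.1.1) q.1.2
      rw [q.2] at this
      exact this.mono inter_subset_left
    · show ‖lrt (k q.1.1) q.1.2 z‖ ^ k q.1.1 < δ
      rw [← norm_pow, lrt_pow (h.one_k _) (hq0 q)]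
      exact mem_ball_zero_iff.1 hz.2
    · intro hz1
      have hz2 : lrt (k q.1.1) q.1.2 z = 0 := hz1
      have hz3 := lrt_pow (h.one_k q.1.1) (hq0 q) z
      rw [hz2, zero_pow (by have := h.one_k q.1.1; omega)] at hz3
      rw [← hz3] at hz
      have hz4 := hz.1
      rw [mem_ball, dist_eq_norm, zero_sub, norm_neg] at hz4
      exact lt_irrefl _ hz4
  have hoU : IsOpen (ball z₀ ‖z₀‖ ∩ ball (0 : ℂ) δ) := isOpen_ball.inter isOpen_ball
  have hzU : z₀ ∈ ball z₀ ‖z₀‖ ∩ ball (0 : ℂ) δ :=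
    ⟨mem_ball_self (norm_pos_iff.2 h0), mem_ball_zero_iff.2 hz⟩
  have hVc : ∀ q : ι, ContinuousAt (V q) z₀ := fun q =>
    ((hsm q).continuousOn.continuousAt (hoU.mem_nhds hzU))
  -- separation
  have hc : ∀ᶠ c : ℝ in 𝓝[>] 0, ∀ q q' : ι, q ≠ q' → c < ‖V q z₀ - V q' z₀‖ := by
    rw [eventually_all]
    intro q
    rw [eventually_all]
    intro q'
    by_cases hqq' : q = q'
    · exact Eventually.of_forall fun c h => absurd hqq' h
    · have h1 : 0 < ‖V q z₀ - V q' z₀‖ := norm_pos_iff.2 (sub_ne_zero.2 (hne q q' hqq'))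
      filter_upwards [Ioo_mem_nhdsGT h1] with c hc _ using hc.2
  obtain ⟨c, hc1, hc0⟩ := (hc.and self_mem_nhdsWithin).exists
  have hc0' : 0 < c := hc0
  have hsep : ∀ᶠ z in 𝓝 z₀, ∀ q q' : ι, q ≠ q' → c < ‖V q z - V q' z‖ := by
    rw [eventually_all]
    intro q
    rw [eventually_all]
    intro q'
    by_cases hqq' : q = q'
    · exact Eventually.of_forall fun c h => absurd hqq' h
    · filter_upwards [((hVc q).sub (hVc q')).norm.eventually (lt_mem_nhds (hc1 q q' hqq'))]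
        with z hz _ using hz
  obtain ⟨r', hr', hb⟩ := Metric.eventually_nhds_iff_ball.1 (hsep.and (hoU.mem_nhds hzU))
  have hbU : ball z₀ r' ⊆ ball z₀ ‖z₀‖ ∩ ball 0 δ := fun z hz => (hb z hz).2
  have hrr : r' / 2 < r' := by linarith
  have hsub : ball z₀ (r' / 2) ⊆ ball (0 : ℂ) δ := fun z hz =>
    (hbU (ball_subset_ball hrr.le hz)).2
  have hall := ae_mono (Measure.restrict_mono hsub le_rfl) h.ae_all
  -- every root is a local root
  have hroot : ∀ z ∈ ball z₀ (r' / 2), z ≠ 0 → ∀ l s, s ^ k l = z →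
      ∃ q : ι, q.1.1 = l ∧ lrt (k l) q.1.2 z = s := by
    intro z _ hz0 l s hs
    have hk := h.one_k l
    have hrt : rt (k l) (z / z₀) ≠ 0 := rt_ne hk (div_ne_zero hz0 h0)
    have e1 : (s / rt (k l) (z / z₀)) ^ k l = z₀ := by
      rw [div_pow, rt_pow hk, hs]
      field_simp
    refine ⟨⟨(l, s / rt (k l) (z / z₀)), e1⟩, rfl, ?_⟩
    show s / rt (k l) (z / z₀) * rt (k l) (z / (s / rt (k l) (z / z₀)) ^ k l) = s
    rw [e1]
    field_simp
  have htan : ∀ q : ι, ∀ᵐ z ∂volume.restrict (ball z₀ (r' / 2)), ∀ i, Y z i = V q z →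
      P z i = d1 (V q) z := by
    intro q
    refine tan_id hM hrr hc0' (hsub.trans (ball_subset_ball hδ)) ((hsm q).mono hbU) ?_
    filter_upwards [hall, ae_restrict_mem measurableSet_ball] with z hz hzb i
    obtain ⟨l, s, hs, hY⟩ := hz.2.1 i
    obtain ⟨q', rfl, h2⟩ := hroot z hzb hz.1 l s hs
    by_cases hqq' : q' = q
    · left
      rw [hY, ← hqq', ← h2]
    · right
      have h3 := (hb z (ball_subset_ball hrr.le hzb)).1 q' q hqq'
      rw [hY, ← h2]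
      exact h3.le
  refine ⟨r' / 2, by positivity, ?_⟩
  filter_upwards [hall, ae_restrict_mem measurableSet_ball, ae_all_iff.2 htan] with z hz hzb hzt
    l s hs i hi
  obtain ⟨q, rfl, h2⟩ := hroot z hzb hz.1 l s hs
  have hs0 : s ≠ 0 := by
    rintro rfl
    rw [zero_pow (by have := h.one_k q.1.1; omega)] at hs
    exact hz.1 hs.symm
  have h3 : P z i = d1 (V q) z := hzt q i (by rw [hi, ← h2])
  have hzδ : ‖z‖ < δ := mem_ball_zero_iff.1 (hsub hzb)
  have h4 : DifferentiableAt ℝ (W q.1.1) (lrt (k q.1.1) q.1.2 z) := by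
    rw [h2]
    have ho : IsOpen ({s : ℂ | ‖s‖ ^ k q.1.1 < δ} \ {0}) :=
      (isOpen_lt (by fun_prop) continuous_const).sdiff isClosed_singleton
    refine ((h.smooth q.1.1).contDiffAt (ho.mem_nhds ⟨?_, hs0⟩)).differentiableAt (by simp)
    show ‖s‖ ^ k q.1.1 < δ
    rw [← norm_pow, hs]; exact hzδ
  have h5 : HasDerivAt (lrt (k q.1.1) q.1.2)
      ((k q.1.1 * lrt (k q.1.1) q.1.2 z ^ (k q.1.1 - 1))⁻¹) z := by
    refine lrt_hasDerivAt (h.one_k _) ?_
    rw [q.2]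
    exact (hbU (ball_subset_ball hrr.le hzb)).1
  rw [h3]
  show d1 (fun w => W q.1.1 (lrt (k q.1.1) q.1.2 w)) z = _
  rw [d1_comp h4 h5, h2]

/-- `P` is the derivative of the sheet -/
theorem Pui.P_eq (h : Pui m A Y δ k μ W) (hM : MG N m A ρ Y P) (hδ : δ ≤ 1) :
    ∀ᵐ z ∂volume.restrict (ball (0 : ℂ) δ), ∀ l s, s ^ k l = z → ∀ i, Y z i = W l s →
      P z i = d1 (W l) s * (k l * s ^ (k l - 1))⁻¹ := by
  rw [ae_restrict_iff' measurableSet_ball]
  have h0 : ∀ᵐ z ∂(volume : Measure ℂ), z ≠ 0 := by rw [ae_iff]; simp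
  have key : volume {z : ℂ | z ≠ 0 ∧ z ∈ ball (0 : ℂ) δ ∧ ¬ ∀ l s, s ^ k l = z → ∀ i,
      Y z i = W l s → P z i = d1 (W l) s * (k l * s ^ (k l - 1))⁻¹} = 0 := by
    refine measure_null_of_locally_null _ fun z₀ hz₀ => ?_
    obtain ⟨hz0, hzb, _⟩ := hz₀
    obtain ⟨r, hr, hr1⟩ := h.P_loc hM hδ hz0 (mem_ball_zero_iff.1 hzb)
    refine ⟨_, inter_mem_nhdsWithin _ (ball_mem_nhds z₀ hr), ?_⟩
    rw [ae_restrict_iff' measurableSet_ball, ae_iff] at hr1
    refine measure_mono_null (fun z hz => ?_) hr1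
    intro hc
    exact hz.1.2.2 (hc hz.2)
  have h1 := compl_mem_ae_iff.2 key
  filter_upwards [h1, h0] with z hz hz0 hzb
  by_contra hc
  exact hz ⟨hz0, hzb, hc⟩

end Vale.Agent.P247.H620
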