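import Vale.Agent.P247.H620.LSm

/-!
# P247, LSX: the local structure theorem
-/

open scoped ContDiff Topology
open Set MeasureTheory Filter Metric

noncomputable section

namespace Vale.Agent.P247.H620

open Vale.Agent.P247.H74 Vale.Agent.P247.H574

theorem cf2_val (a : CForm) (x u v : R4) : cf2 a x u v = a.val x u v := by
  simp only [cf2, dd, CForm.val, add_apply, sub_apply, ContinuousLinearMap.flip_apply]
  ring

theorem f2_cont {φ : R4 → F2} (h : ∀ u v, Continuous (fun x => φ x u v)) :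
    Continuous φ :=
  continuous_clm_apply.2 fun u => continuous_clm_apply.2 fun v => h u v

theorem ap_cont {φ : R4 → F2} (h : Continuous φ) (u v : R4) :
    Continuous (fun x => φ x u v) :=
  continuous_clm_apply.1 (continuous_clm_apply.1 h u) v

theorem cf2_continuous (a : CForm) : Continuous (cf2 a) := by
  have h1 : Continuous (fderiv ℝ a.lam) := a.lam_smooth.continuous_fderiv (by simp)
  refine f2_cont fun u v => ?_
  simp only [cf2_val, CForm.val]
  exact (continuous_const.add (ap_cont h1 u v)).sub (ap_cont h1 v u)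

/-- a bump times the taming form -/
def bf (D : Data) (y : R4) (ε : ℝ) (x : R4) : F2 := max 0 (ε - dist x y) • cf2 D.om x

theorem bf_supp (D : Data) (y : R4) (ε : ℝ) : tsupport (bf D y ε) ⊆ closedBall y ε := by
  refine closure_minimal (fun x hx => ?_) isClosed_closedBall
  by_contra h
  rw [mem_closedBall, not_le] at h
  apply hx
  rw [bf, max_eq_left (by linarith)]
  exact ContinuousLinearMap.ext fun u => ContinuousLinearMap.ext fun v => zero_mul _

theorem bf_CF (D : Data) (y : R4) (ε : ℝ) : CF (bf D y ε) where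
  cont := by
    have h1 : Continuous fun x : R4 => max 0 (ε - dist x y) := by fun_prop
    refine f2_cont fun u v => ?_
    exact h1.mul (ap_cont (cf2_continuous D.om) u v)
  supp := (isCompact_closedBall y ε).of_isClosed_subset (isClosed_tsupport _) (bf_supp D y ε)
  alt := by
    intro x u
    rw [bf, smul_apply, smul_apply, cf2_val, CForm.val, D.om.κ_self]
    simp

theorem brd_bf {D : Data} {y : R4} {ε : ℝ} {u : ℂ → R4} {t : ℂ}
    (hol : fderiv ℝ u t Complex.I = D.J (u t) (fderiv ℝ u t 1)) :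
    0 ≤ brd (bf D y ε) u t ∧
      (dist (u t) y < ε → fderiv ℝ u t 1 ≠ 0 → 0 < brd (bf D y ε) u t) := by
  have e : brd (bf D y ε) u t = max 0 (ε - dist (u t) y) *
      D.om.val (u t) (fderiv ℝ u t 1) (D.J (u t) (fderiv ℝ u t 1)) := by
    rw [brd, bf, smul_apply, smul_apply, cf2_val, hol, smul_eq_mul]
  rw [e]
  constructor
  · refine mul_nonneg (le_max_left _ _) ?_
    by_cases h : fderiv ℝ u t 1 = 0
    · rw [h, map_zero]
      simp [CForm.val]
    · exact (D.tame _ _ h).le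
  · intro h1 h2
    exact mul_pos (lt_max_of_lt_right (by linarith)) (D.tame _ _ h2)

section

variable {D : Data} {S : ICur D} {b : Box D} {ρ : ℝ} {N : ℕ} {Y P : ℂ → Fin N → ℂ}
  {R : Measure (ℂ × ℂ)} {δ : ℝ} {L : ℕ} {k μ : Fin L → ℕ} {W : Fin L → ℂ → ℂ}

/-- the branches are immersed off `0` -/
theorem Cnf.imm (h : Pui b.m b.A Y δ k μ W) (hb : ∀ z i, ‖Y z i‖ ≤ ρ) (hρ : ρ < 1)
    (hδ : δ ≤ 1) {l : Fin L} {r : ℝ} {σ : ℂ → ℂ} (hσ : Cnf b (k l) (W l) δ r σ) {t : ℂ}
    (ht : t ∈ ball (0 : ℂ) r) (h0 : t ≠ 0) :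
    fderiv ℝ (fun t => bm b (k l) (W l) (σ t)) t 1 ≠ 0 := by
  have hst0 : σ t ≠ 0 := by
    intro h2
    have h3 := hσ.low t ht
    rw [h2, norm_zero] at h3
    have := norm_pos_iff.2 h0
    linarith
  have hsU := ball_Up (h.one_k l) hδ ⟨hσ.mem t ht, hst0⟩
  have hd1 : HasFDerivAt (fun t => bm b (k l) (W l) (σ t))
      ((fderiv ℝ (bm b (k l) (W l)) (σ t)).comp (fderiv ℝ σ t)) t :=
    HasFDerivAt.comp (g := bm b (k l) (W l)) t
      ((((h.bm_smooth hb hρ hδ l).contDiffAt ((Up_open _ _).mem_nhds hsU)).differentiableAt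
        (by simp)).hasFDerivAt)
      (((hσ.c1.contDiffAt (isOpen_ball.mem_nhds ht)).differentiableAt
        (by simp)).hasFDerivAt)
  rw [hd1.fderiv]
  simp only [ContinuousLinearMap.comp_apply]
  rw [h.bm_fderiv hb hρ hδ l hsU rfl rfl]
  intro hz
  have h1 := (b.imm _ (h.mem_PD hb hρ hδ l hsU)).1 (hz.trans (map_zero _).symm)
  have h2 : (k l : ℂ) * σ t ^ (k l - 1) * fderiv ℝ σ t 1 = 0 := (Prod.mk.injEq _ _ _ _ ▸ h1 : _ ∧ _).1
  have hk := h.one_k l
  have hD : (k l : ℂ) * σ t ^ (k l - 1) ≠ 0 :=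
    mul_ne_zero (Nat.cast_ne_zero.2 (by omega)) (pow_ne_zero _ hst0)
  have h3 : fderiv ℝ σ t 1 = 0 := by
    rcases mul_eq_zero.1 h2 with h4 | h4
    · exact absurd h4 hD
    · exact h4
  have h4 := hσ.det t ht
  rw [det_eq, h3] at h4
  simp at h4

/-- injectivity and disjointness of the branches -/
theorem Cnf.inj' (h : Pui b.m b.A Y δ k μ W) (hb : ∀ z i, ‖Y z i‖ ≤ ρ) (hρ : ρ < 1)
    (hδ : δ ≤ 1) {r : ℝ} {σ : Fin L → ℂ → ℂ} (hσ : ∀ l, W l 0 = 0 → Cnf b (k l) (W l) δ r (σ l))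
    {l l' : Fin L} (hl : W l 0 = 0) (hl' : W l' 0 = 0) {t t' : ℂ}
    (ht : t ∈ ball (0 : ℂ) r) (ht' : t' ∈ ball (0 : ℂ) r)
    (he : bm b (k l) (W l) (σ l t) = bm b (k l') (W l') (σ l' t')) :
    (l = l' ∧ t = t') ∨ (t = 0 ∧ t' = 0) := by
  have c1 := hσ l hl
  have c2 := hσ l' hl'
  have hmem : ∀ l, W l 0 = 0 → ∀ s ∈ ball (0 : ℂ) δ, (s ^ k l, W l s) ∈ PD 2 := by
    intro l hl s hs
    by_cases h0 : s = 0
    · rw [h0, hl, zero_pow (by have := h.one_k l; omega)]
      simp [PD]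
    · exact h.mem_PD hb hρ hδ l (ball_Up (h.one_k l) hδ ⟨hs, h0⟩)
  have h1 := (b.inj _ (hmem l hl _ (c1.mem t ht)) _ (hmem l' hl' _ (c2.mem t' ht')) 0
    (by rw [tr_zero]; exact he)).1
  rw [Prod.mk.injEq] at h1
  have hz : ∀ l, W l 0 = 0 → ∀ t ∈ ball (0 : ℂ) r, σ l t = 0 → t = 0 := by
    intro l hl t ht h2
    have h3 := (hσ l hl).low t ht
    rw [h2, norm_zero] at h3
    have h4 := norm_nonneg t
    exact norm_eq_zero.1 (by linarith)
  by_cases h0 : σ l t = 0
  · right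
    refine ⟨hz l hl t ht h0, hz l' hl' t' ht' ?_⟩
    have h2 := h1.1
    rw [h0, zero_pow (by have := h.one_k l; omega)] at h2
    exact pow_eq_zero_iff (by have := h.one_k l'; omega) |>.1 h2.symm
  · left
    have hsU := ball_Up (h.one_k l) hδ ⟨c1.mem t ht, h0⟩
    obtain ⟨h2, h3⟩ := h.inj l l' _ _ h0 hsU.1 h1.1 h1.2
    subst h2
    exact ⟨rfl, c1.inj ht ht' h3⟩

end

theorem cm_mul (D : Data) (x v : R4) (a b : ℂ) :
    cm D x a (cm D x b v) = cm D x (a * b) v := by
  simp only [cm, map_add, map_smul, D.J_sq, Complex.mul_re, Complex.mul_im, smul_add, smul_smul,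
    smul_neg, sub_smul, add_smul]
  abel

theorem cm_neg (D : Data) (x v : R4) (a : ℂ) : cm D x a (-v) = - cm D x a v := by
  simp only [cm, map_neg, smul_neg]
  abel

/-- complex frames exist -/
theorem exists_frame (D : Data) (x : R4) :
    ∃ v h : R4, ∀ a b : ℂ, cm D x a v + cm D x b h = 0 → a = 0 ∧ b = 0 := by
  set v : R4 := fun _ => 1 with hv
  have hv0 : v ≠ 0 := fun h => by
    have := congrFun h 0
    simp [hv] at this
  obtain ⟨h, hh⟩ : ∃ h : R4, ∀ a : ℂ, cm D x a v ≠ h := by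
    by_contra hcon
    push Not at hcon
    let g : ℂ →ₗ[ℝ] R4 := Complex.reLm.smulRight v + Complex.imLm.smulRight (D.J x v)
    have hg : Function.Surjective g := by
      intro h
      obtain ⟨a, ha⟩ := hcon h
      exact ⟨a, by rw [← ha]; simp [g, cm]⟩
    have h1 := LinearMap.finrank_le_finrank_of_surjective hg
    rw [Complex.finrank_real_complex, Module.finrank_fin_fun] at h1
    omega
  refine ⟨v, h, fun a b hab => ?_⟩
  have hb : b = 0 := by
    by_contra hb
    apply hh (-(b⁻¹ * a))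
    have h1 : cm D x b h = - cm D x a v := by
      rw [eq_neg_iff_add_eq_zero, add_comm]; exact hab
    have h2 : cm D x b⁻¹ (cm D x b h) = h := by
      rw [cm_mul, inv_mul_cancel₀ hb]
      simp [cm]
    rw [← h2, h1, cm_neg, cm_mul]
    simp only [cm, Complex.neg_re, Complex.neg_im]
    module
  refine ⟨?_, hb⟩
  by_contra ha
  apply hv0
  have h1 : cm D x a v = 0 := by
    rw [hb] at hab
    simpa [cm] using hab
  have h2 : cm D x a⁻¹ (cm D x a v) = v := by
    rw [cm_mul, inv_mul_cancel₀ ha]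
    simp [cm]
  rw [← h2, h1]
  simp [cm]

theorem LSX (hC : CONF_statement) (hJ : JREG_statement) : LSX_statement := by
  classical
  intro _ hGB hMGX hPUI D S x hx
  -- a frame
  obtain ⟨v, h, hvh⟩ : ∃ v h : R4, ∀ a b : ℂ, cm D x a v + cm D x b h = 0 → a = 0 ∧ b = 0 :=
    exists_frame D x
  obtain ⟨b₀, ρ, hx0, hgood₀, -⟩ := hGB D S x hx v h 1 one_pos hvh
  -- the normalised box
  set b := Box.norm b₀ with hbdef
  have hgood : GoodBox S b ρ := GoodBox.norm hgood₀
  have hbx : b.Θ (0, 0) = x := by rw [hbdef, Box.norm_zero, hx0]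
  have hm0 : b.m (0, 0) = 0 := Box.norm_m_zero b₀
  clear_value b
  have hρ : ρ < 1 := hgood.2.1
  obtain ⟨N, Y, P, R, hM, hT⟩ := hMGX D S b ρ hgood
  obtain ⟨δ', hδ', L, k, μ, W, hR', hk, -, hWs, ⟨C, γ, hγ, hgr'⟩, heq, hinj, hsum⟩ :=
    hPUI N b.m b.A ρ Y P R b.m_smooth b.A_smooth b.m_lt hρ hM
  have hP' : Pui b.m b.A Y δ' k μ W :=
    ⟨fun l => (hk l).1, fun l => (hk l).2, fun l => (hWs l).1, fun l => (hWs l).2, heq, hinj, hsum⟩
  set δ := min δ' 1 with hδdef
  have hδ0 : 0 < δ := lt_min hδ' one_pos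
  have hδ : δ ≤ 1 := min_le_right _ _
  have hδδ : δ ≤ δ' := min_le_left _ _
  have hP := hP'.mono hδδ
  have hR : R (ball (0 : ℂ) δ ×ˢ univ) = 0 :=
    measure_mono_null (prod_mono (ball_subset_ball hδδ) le_rfl) hR'
  have hgr : Gr δ k W C γ := fun l s h0 hs => hgr' l s h0 (hs.trans_le hδδ)
  have hb := hM.bdd
  -- conformal parameters
  have hex : ∀ l, ∃ (r₁ : ℝ) (σ : ℂ → ℂ), 0 < r₁ ∧ (W l 0 = 0 → Cnf b (k l) (W l) δ r₁ σ) := by
    intro l
    by_cases hl : W l 0 = 0
    · obtain ⟨r₁, σ, hc⟩ := hP.exists_cnf hC hJ hb hρ hδ hδ0 hγ hgr hm0 l hl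
      exact ⟨r₁, σ, hc.pos, fun _ => hc⟩
    · exact ⟨1, id, one_pos, fun h => absurd h hl⟩
  choose rr σ hrr hσ' using hex
  obtain ⟨r, hrle, hr0⟩ : ∃ r : ℝ, (∀ l, r ≤ rr l) ∧ 0 < r := by
    have h1 : ∀ᶠ r in 𝓝[>] (0 : ℝ), ∀ l, r ≤ rr l := by
      rw [eventually_all]
      exact fun l => ev_le (hrr l)
    exact (h1.and self_mem_nhdsWithin).exists
  have hσ : ∀ l, W l 0 = 0 → Cnf b (k l) (W l) δ r (σ l) := fun l hl =>
    (hσ' l hl).mono hr0 (hrle l)
  set U : Fin L → ℂ → R4 := fun l t => bm b (k l) (W l) (σ l t) with hU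
  have hU0 : ∀ l, W l 0 = 0 → U l 0 = x := by
    intro l hl
    show b.Θ (σ l 0 ^ k l, W l (σ l 0)) = x
    rw [(hσ l hl).zero, hl, zero_pow (by have := hP.one_k l; omega), hbx]
  -- first level
  obtain ⟨ε₁, hε₁, hfar₁, hT₁⟩ := T_small hρ hM hT hP hδ hδ0 hR hσ (show 0 < r / 2 by positivity)
    (show r / 2 < r by linarith)
  rw [hbx] at hfar₁ hT₁
  have hsubr : ball (0 : ℂ) (r / 2) ⊆ ball 0 r := ball_subset_ball (by linarith)
  have hmemS : ∀ l, W l 0 = 0 → ∀ t ∈ ball (0 : ℂ) (r / 2), U l t ∈ ball x ε₁ → U l t ∈ S.supp := by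
    intro l hl t ht hte
    by_cases h0 : t = 0
    · rw [h0, hU0 l hl]; exact hx
    intro ε' hε'
    have hd : 0 < ε₁ - dist (U l t) x := by
      have := mem_ball.1 hte
      linarith
    set ε'' := min (ε' / 2) ((ε₁ - dist (U l t) x) / 2) with hε''
    have hε0 : 0 < ε'' := lt_min (by linarith) (by linarith)
    have hs1 : tsupport (bf D (U l t) ε'') ⊆ ball (U l t) ε' := by
      refine (bf_supp _ _ _).trans (closedBall_subset_ball ?_)
      have := min_le_left (ε' / 2) ((ε₁ - dist (U l t) x) / 2)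
      linarith
    have hs2 : tsupport (bf D (U l t) ε'') ⊆ ball x ε₁ := by
      refine (bf_supp _ _ _).trans fun y hy => ?_
      rw [mem_ball]
      have h1 := dist_triangle y (U l t) x
      have h2 := mem_closedBall.1 hy
      have h3 := min_le_right (ε' / 2) ((ε₁ - dist (U l t) x) / 2)
      linarith
    refine ⟨bf D (U l t) ε'', bf_CF _ _ _, hs1, ?_⟩
    rw [hT₁ _ (bf_CF _ _ _) hs2]
    have hnn : ∀ l', W l' 0 = 0 → ∀ t' ∈ ball (0 : ℂ) r, 0 ≤ brd (bf D (U l t) ε'') (U l') t' :=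
      fun l' hl' t' ht' => (brd_bf ((hσ l' hl').hol t' ht')).1
    apply ne_of_gt
    have hterm : ∀ l', 0 ≤ (if W l' 0 = 0 then (μ l' : ℝ) * ∫ t' in ball (0 : ℂ) (r / 2),
        brd (bf D (U l t) ε'') (U l') t' else 0) := by
      intro l'
      split_ifs with hl'
      · refine mul_nonneg (by positivity) ?_
        exact setIntegral_nonneg measurableSet_ball fun t' ht' => hnn l' hl' t' (hsubr ht')
      · exact le_rfl
    refine Finset.sum_pos' (fun l' _ => hterm l') ⟨l, Finset.mem_univ l, ?_⟩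
    rw [if_pos hl]
    have hμ : 0 < (μ l : ℝ) := by exact_mod_cast hP.one_μ l
    refine mul_pos hμ ?_
    have hcn := hσ l hl
    have hcb : ContinuousOn (brd (bf D (U l t) ε'') (U l)) (ball 0 r) := by
      have h2 : ContinuousOn (fderiv ℝ (U l)) (ball 0 r) :=
        hcn.smooth.continuousOn_fderiv_of_isOpen isOpen_ball (by simp)
      have h3 : ContinuousOn (fun s => bf D (U l t) ε'' (U l s)) (ball 0 r) :=
        (bf_CF D (U l t) ε'').cont.comp_continuousOn hcn.smooth.continuousOn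
      exact (h3.clm_apply (h2.clm_apply continuousOn_const)).clm_apply
        (h2.clm_apply continuousOn_const)
    have hcl : closedBall (0 : ℂ) (r / 2) ⊆ ball 0 r := closedBall_subset_ball (by linarith)
    have hint : IntegrableOn (brd (bf D (U l t) ε'') (U l)) (ball 0 (r / 2)) :=
      ((hcb.mono hcl).integrableOn_compact (isCompact_closedBall _ _)).mono_set
        ball_subset_closedBall
    rw [setIntegral_pos_iff_support_of_nonneg_ae _ hint]
    · have hpos : 0 < brd (bf D (U l t) ε'') (U l) t :=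
        (brd_bf (hcn.hol t (hsubr ht))).2 (by rw [dist_self]; exact hε0)
          (Cnf.imm hP hb hρ hδ hcn (hsubr ht) h0)
      have hev : ∀ᶠ t' in 𝓝 t, 0 < brd (bf D (U l t) ε'') (U l) t' ∧ t' ∈ ball (0 : ℂ) (r / 2) :=
        ((hcb.continuousAt (isOpen_ball.mem_nhds (hsubr ht))).eventually
          (lt_mem_nhds hpos)).and (isOpen_ball.mem_nhds ht)
      obtain ⟨q, hq, hball⟩ := Metric.eventually_nhds_iff_ball.1 hev
      refine (measure_ball_pos volume t hq).trans_le (measure_mono fun t' ht' => ?_)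
      exact ⟨(hball t' ht').1.ne', (hball t' ht').2⟩
    · filter_upwards [ae_restrict_mem measurableSet_ball] with t' ht'
      exact hnn l hl t' (hsubr ht')
  -- second level
  obtain ⟨c, hcall, hc0⟩ : ∃ c : ℝ, ((∀ l, W l 0 = 0 → ∀ t ∈ ball (0 : ℂ) (2 * c), U l t ∈ ball x ε₁)
      ∧ c ≤ r / 4) ∧ 0 < c := by
    have h1 : ∀ᶠ c in 𝓝[>] (0 : ℝ), ∀ l, W l 0 = 0 → ∀ t ∈ ball (0 : ℂ) (2 * c),
        U l t ∈ ball x ε₁ := by
      rw [eventually_all]
      intro l
      by_cases hl : W l 0 = 0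
      · have hcu : ContinuousAt (U l) 0 := (hσ l hl).smooth.continuousOn.continuousAt
          (isOpen_ball.mem_nhds (mem_ball_self hr0))
        have h2 : ∀ᶠ t in 𝓝 (0 : ℂ), U l t ∈ ball x ε₁ := by
          refine hcu.eventually (isOpen_ball.mem_nhds ?_)
          rw [hU0 l hl]; exact mem_ball_self hε₁
        obtain ⟨q, hq, hball⟩ := Metric.eventually_nhds_iff_ball.1 h2
        filter_upwards [ev_le (show 0 < q / 2 by positivity)] with c hc _ t ht
        exact hball t (ball_subset_ball (by linarith) ht)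
      · exact Eventually.of_forall fun c h => absurd h hl
    obtain ⟨c, ⟨h2, h3⟩, h4⟩ := ((h1.and (ev_le (show 0 < r / 4 by positivity))).and
      self_mem_nhdsWithin).exists
    exact ⟨c, ⟨h2, h3⟩, h4⟩
  obtain ⟨hcall, hcr⟩ := hcall
  obtain ⟨ε₂, hε₂, hfar₂, hT₂⟩ := T_small hρ hM hT hP hδ hδ0 hR hσ hc0 (show c < r by linarith)
  rw [hbx] at hfar₂ hT₂
  -- the index set
  let ι := {l : Fin L // W l 0 = 0}
  let e := Fintype.equivFin ι
  have h2c : ∀ z ∈ ball (0 : ℂ) 2, c • z ∈ ball (0 : ℂ) (2 * c) := by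
    intro z hz
    rw [mem_ball_zero_iff] at hz ⊢
    rw [norm_smul, Real.norm_of_nonneg hc0.le]
    nlinarith
  have h2r : ball (0 : ℂ) (2 * c) ⊆ ball 0 (r / 2) := ball_subset_ball (by linarith)
  set u : Fin (Fintype.card ι) → ℂ → R4 := fun i z => U (e.symm i).1 (c • z) with hu
  have hW0 : ∀ i, W (e.symm i).1 0 = 0 := fun i => (e.symm i).2
  have hder : ∀ i, ∀ z ∈ ball (0 : ℂ) 2, ∀ w, fderiv ℝ (u i) z w =
      c • fderiv ℝ (U (e.symm i).1) (c • z) w := by
    intro i z hz w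
    have h1 : DifferentiableAt ℝ (U (e.symm i).1) (c • z) :=
      (((hσ _ (hW0 i)).smooth).contDiffAt (isOpen_ball.mem_nhds
        (hsubr (h2r (h2c z hz))))).differentiableAt (by simp)
    have h2 : HasFDerivAt (fun z : ℂ => c • z) (c • ContinuousLinearMap.id ℝ ℂ) z :=
      (hasFDerivAt_id z).const_smul c
    have h3 : HasFDerivAt (u i) _ z := h1.hasFDerivAt.comp z h2
    rw [h3.fderiv]
    simp
  have hbrI : ∀ (φ : R4 → F2) i, brI (u i) φ = ∫ t in ball (0 : ℂ) c, brd φ (U (e.symm i).1) t := by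
    intro φ i
    have h1 : brI (u i) φ = ∫ z in ball (0 : ℂ) 1, c ^ 2 * brd φ (U (e.symm i).1) (c • z) := by
      refine setIntegral_congr_fun measurableSet_ball fun z hz => ?_
      have hz2 : z ∈ ball (0 : ℂ) 2 := ball_subset_ball (by norm_num) hz
      rw [hder i z hz2, hder i z hz2, brd]
      simp only [map_smul, smul_apply, smul_eq_mul]
      ring
    rw [h1, integral_const_mul, Measure.setIntegral_comp_smul_of_pos volume _ _ hc0,
      smul_unitBall_of_pos hc0, Complex.finrank_real_complex, smul_eq_mul, mul_inv_cancel_left₀]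
    positivity
  have hTfin : ∀ φ, CF φ → tsupport φ ⊆ ball x ε₂ →
      S.T φ = ∑ i, (μ (e.symm i).1 : ℝ) * brI (u i) φ := by
    intro φ hφ hs
    rw [hT₂ φ hφ hs]
    have h1 : ∑ i, (μ (e.symm i).1 : ℝ) * brI (u i) φ =
        ∑ l : ι, (μ l.1 : ℝ) * ∫ t in ball (0 : ℂ) c, brd φ (U l.1) t := by
      rw [← e.symm.sum_comp]
      exact Finset.sum_congr rfl fun i _ => by rw [hbrI]
    rw [h1, ← Finset.sum_filter]
    exact Finset.sum_subtype _ (fun l => by simp) _
  refine ⟨Fintype.card ι, u, fun i => μ (e.symm i).1, ε₂, ?_, fun i => hP.one_μ _, hTfin⟩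
  refine ⟨?_, hε₂, fun i => ⟨?_, ?_⟩, ?_, ?_, ?_, ?_, ?_, ?_⟩
  · -- there is a branch
    by_contra hN
    obtain ⟨φ, hφ, hs, hne⟩ := hx ε₂ hε₂
    apply hne
    rw [hTfin φ hφ hs]
    refine Finset.sum_eq_zero fun i _ => ?_
    exact absurd (Fin.pos i) hN
  · -- smoothness
    have h1 : ContDiffOn ℝ ∞ (U (e.symm i).1) (ball 0 r) := (hσ _ (hW0 i)).smooth
    exact h1.comp (contDiff_const_smul c).contDiffOn fun z hz => hsubr (h2r (h2c z hz))
  · intro z hz
    rw [hder i z hz, hder i z hz, map_smul]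
    congr 1
    exact (hσ _ (hW0 i)).hol _ (hsubr (h2r (h2c z hz)))
  · intro i
    show U (e.symm i).1 (c • (0 : ℂ)) = x
    rw [smul_zero]; exact hU0 _ (hW0 i)
  · intro i z hz h0
    rw [hder i z hz]
    refine smul_ne_zero hc0.ne' ?_
    exact Cnf.imm hP hb hρ hδ (hσ _ (hW0 i)) (hsubr (h2r (h2c z hz))) (smul_ne_zero hc0.ne' h0)
  · intro i i' z hz z' hz' he
    rcases Cnf.inj' hP hb hρ hδ hσ (hW0 i) (hW0 i') (hsubr (h2r (h2c z hz)))
      (hsubr (h2r (h2c z' hz'))) he with h1 | h1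
    · left
      exact ⟨e.symm.injective (Subtype.ext h1.1), smul_right_injective ℂ hc0.ne' h1.2⟩
    · right
      exact ⟨(smul_eq_zero.1 h1.1).resolve_left hc0.ne', (smul_eq_zero.1 h1.2).resolve_left hc0.ne'⟩
  · intro i z hz h1
    refine hfar₂ _ (hW0 i) _ (hsubr (h2r (h2c z hz))) ?_
    rw [norm_smul, Real.norm_of_nonneg hc0.le]
    nlinarith
  · intro i z hz
    exact hmemS _ (hW0 i) _ (h2r (h2c z hz)) (hcall _ (hW0 i) _ (h2c z hz))
  · -- the branches cover the support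
    intro y hy hyS
    by_contra hcon
    push Not at hcon
    have hK : IsCompact (⋃ i, U (e.symm i).1 '' closedBall (0 : ℂ) c) := by
      refine isCompact_iUnion fun i => (isCompact_closedBall _ _).image_of_continuousOn ?_
      exact (hσ _ (hW0 i)).smooth.continuousOn.mono (closedBall_subset_ball (by linarith))
    have hyK : y ∉ ⋃ i, U (e.symm i).1 '' closedBall (0 : ℂ) c := by
      rw [mem_iUnion]
      rintro ⟨i, t, ht, rfl⟩
      rw [mem_closedBall_zero_iff] at ht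
      rcases ht.lt_or_eq with h1 | h1
      · refine hcon i (c⁻¹ • t) ?_ ?_
        · rw [mem_ball_zero_iff, norm_smul, norm_inv, Real.norm_of_nonneg hc0.le,
            inv_mul_lt_iff₀ hc0, mul_one]
          exact h1
        · show U (e.symm i).1 (c • c⁻¹ • t) = _
          rw [smul_inv_smul₀ hc0.ne']
      · have h2 := hfar₂ _ (hW0 i) t (by rw [mem_ball_zero_iff]; linarith) h1.ge
        exact absurd (mem_ball.1 hy) (not_lt.2 h2)
    have h1 : (⋃ i, U (e.symm i).1 '' closedBall (0 : ℂ) c)ᶜ ∩ ball x ε₂ ∈ 𝓝 y :=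
      (hK.isClosed.isOpen_compl.inter isOpen_ball).mem_nhds ⟨hyK, hy⟩
    obtain ⟨ε', hε', hb'⟩ := Metric.mem_nhds_iff.1 h1
    obtain ⟨φ, hφ, hs, hne⟩ := hyS ε' hε'
    apply hne
    rw [hTfin φ hφ (hs.trans (hb'.trans inter_subset_right))]
    refine Finset.sum_eq_zero fun i _ => ?_
    rw [hbrI, setIntegral_eq_zero_of_forall_eq_zero, mul_zero]
    intro t ht
    have h2 : U (e.symm i).1 t ∉ tsupport φ := by
      intro h3
      exact (hb' (hs h3)).1 (mem_iUnion.2 ⟨i, t, ball_subset_closedBall ht, rfl⟩)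
    rw [brd, image_eq_zero_of_notMem_tsupport h2]
    simp

end Vale.Agent.P247.H620
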