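import Vale.Agent.P247.H620.LBr

/-!
# P247, LSX: the current near the point, in conformal parameters
-/

open scoped ContDiff Topology
open Set MeasureTheory Filter Metric

noncomputable section

namespace Vale.Agent.P247.H620

open Vale.Agent.P247.H74 Vale.Agent.P247.H574

theorem form_det {B : F2} (hB : ∀ u, B u u = 0) (A : ℂ →L[ℝ] R4) (G : ℂ →L[ℝ] ℂ) :
    B (A (G 1)) (A (G Complex.I)) = G.det * B (A 1) (A Complex.I) := by
  have hanti : ∀ u v, B u v = - B v u := by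
    intro u v
    have h1 := hB (u + v)
    simp only [map_add, add_apply] at h1
    rw [hB, hB] at h1
    linarith
  have e : ∀ w : ℂ, A w = w.re • A 1 + w.im • A Complex.I := by
    intro w
    rw [← map_smul, ← map_smul, ← map_add]
    congr 1
    simp
  rw [det_eq, e (G 1), e (G Complex.I)]
  simp only [map_add, map_smul, add_apply, smul_apply, smul_eq_mul]
  rw [hB, hB, hanti (A Complex.I) (A 1)]
  ring

section

variable {D : Data} {S : ICur D} {b : Box D} {ρ : ℝ} {N : ℕ} {Y P : ℂ → Fin N → ℂ}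
  {R : Measure (ℂ × ℂ)} {δ : ℝ} {L : ℕ} {k μ : Fin L → ℕ} {W : Fin L → ℂ → ℂ}

/-- points of the box near `x` -/
theorem box_near (b : Box D) {η : ℝ} (hη : 0 < η) : ∃ ε > 0, ∀ p ∈ K1,
    dist (b.Θ p) (b.Θ (0, 0)) < ε → p ∈ ball (0 : ℂ) η ×ˢ ball (0 : ℂ) η := by
  have h00 : ((0 : ℂ), (0 : ℂ)) ∈ PD 2 := by simp [PD]
  have hK : IsCompact (K1 \ (ball (0 : ℂ) η ×ˢ ball (0 : ℂ) η)) :=
    K1_compact.diff (isOpen_ball.prod isOpen_ball)
  have hc : ContinuousOn (fun p => dist (b.Θ p) (b.Θ (0, 0)))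
      (K1 \ (ball (0 : ℂ) η ×ˢ ball (0 : ℂ) η)) :=
    continuous_dist.comp_continuousOn
      ((b.smooth.continuousOn.mono (sdiff_subset.trans K1_sub)).prodMk continuousOn_const)
  rcases (K1 \ (ball (0 : ℂ) η ×ˢ ball (0 : ℂ) η)).eq_empty_or_nonempty with he | hne
  · refine ⟨1, one_pos, fun p hp _ => ?_⟩
    by_contra h
    exact (Set.eq_empty_iff_forall_notMem.1 he p) ⟨hp, h⟩
  · obtain ⟨q, hq, hmin⟩ := hK.exists_isMinOn hne hc
    refine ⟨dist (b.Θ q) (b.Θ (0, 0)), ?_, fun p hp hlt => ?_⟩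
    · refine dist_pos.2 ?_
      intro h
      have h1 := (b.inj q (K1_sub hq.1) (0, 0) h00 0 (by rw [tr_zero]; exact h)).1
      apply hq.2
      rw [h1]
      exact ⟨mem_ball_self hη, mem_ball_self hη⟩
    · by_contra h
      exact absurd (hmin ⟨hp, h⟩) (not_le.2 hlt)

theorem box_open (b : Box D) {η : ℝ} (hη : 0 < η) : ∃ ε > 0,
    ball (b.Θ (0, 0)) ε ⊆ b.Θ '' (ball (0 : ℂ) η ×ˢ ball (0 : ℂ) η) := by
  have h00 : ((0 : ℂ), (0 : ℂ)) ∈ PD 2 := by simp [PD]
  have ho : IsOpen (PD 2) := isOpen_ball.prod isOpen_ball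
  have h1 : HasStrictFDerivAt b.Θ (fderiv ℝ b.Θ (0, 0)) (0, 0) :=
    (b.smooth.contDiffAt (ho.mem_nhds h00)).hasStrictFDerivAt (by simp)
  have h2 := h1.map_nhds_eq_of_surj (LinearMap.range_eq_top.2 (b.imm _ h00).2)
  have h3 : b.Θ '' (ball (0 : ℂ) η ×ˢ ball (0 : ℂ) η) ∈ 𝓝 (b.Θ (0, 0)) := by
    rw [← h2]
    refine image_mem_map ((isOpen_ball.prod isOpen_ball).mem_nhds ?_)
    exact ⟨mem_ball_self hη, mem_ball_self hη⟩
  exact Metric.mem_nhds_iff.1 h3

theorem ev_le {r : ℝ} (hr : 0 < r) : ∀ᶠ η in 𝓝[>] (0 : ℝ), η ≤ r := by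
  filter_upwards [Ioo_mem_nhdsGT hr] with η h using h.2.le

theorem T_small (hρ : ρ < 1) (hM : MG2 N b.m b.A ρ Y P R)
    (hT : ∀ φ, CF φ → tsupport φ ⊆ b.Θ '' (ball (0 : ℂ) 1 ×ˢ ball (0 : ℂ) 1) →
      S.T φ = (∫ z in ball (0 : ℂ) 1,
        ∑ i, φ (b.Θ (z, Y z i)) (tan1 b z (Y z i) (P z i)) (tan2 b z (Y z i) (P z i))) +
        ∫ p, φ (b.Θ p) (fderiv ℝ b.Θ p (0, 1)) (fderiv ℝ b.Θ p (0, Complex.I)) ∂(R))
    (h : Pui b.m b.A Y δ k μ W) (hδ : δ ≤ 1) (hδ0 : 0 < δ) (hR : R (ball (0 : ℂ) δ ×ˢ univ) = 0)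
    {r : ℝ} {σ : Fin L → ℂ → ℂ} (hσ : ∀ l, W l 0 = 0 → Cnf b (k l) (W l) δ r (σ l))
    {c : ℝ} (hc : 0 < c) (hcr : c < r) :
    ∃ ε > 0, (∀ l, W l 0 = 0 → ∀ t ∈ ball (0 : ℂ) r, c ≤ ‖t‖ →
        ε ≤ dist (bm b (k l) (W l) (σ l t)) (b.Θ (0, 0))) ∧
      ∀ φ, CF φ → tsupport φ ⊆ ball (b.Θ (0, 0)) ε →
        S.T φ = ∑ l, if W l 0 = 0 then
          (μ l : ℝ) * ∫ t in ball (0 : ℂ) c, brd φ (fun t => bm b (k l) (W l) (σ l t)) t else 0 := by
  have hb := hM.bdd
  -- the choice of `η`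
  have e1 : ∀ᶠ η in 𝓝[>] (0 : ℝ), ∀ l, (W l 0 ≠ 0 → ∀ s, ‖s‖ ^ k l < η → η ≤ ‖W l s‖) ∧
      (W l 0 = 0 → (∀ s, ‖s‖ ^ k l < η → s ∈ σ l '' (ball 0 c ∩ ball 0 r)) ∧
        η ≤ (c / 2) ^ k l) := by
    rw [eventually_all]
    intro l
    have hk := h.one_k l
    by_cases hl : W l 0 = 0
    · obtain ⟨r₂, hr₂, h2⟩ := (hσ l hl).onto c hc
      filter_upwards [ev_le (show 0 < r₂ ^ k l by positivity),
        ev_le (show 0 < (c / 2) ^ k l by positivity)] with η h3 h4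
      refine ⟨fun h5 => absurd hl h5, fun _ => ⟨fun s hs => h2 ?_, h4⟩⟩
      rw [mem_ball_zero_iff]
      exact lt_of_pow_lt_pow_left₀ (k l) hr₂.le (hs.trans_le h3)
    · have hcont : ContinuousAt (W l) 0 := by
        have ho : IsOpen {s : ℂ | ‖s‖ ^ k l < δ} := isOpen_lt (by fun_prop) continuous_const
        refine (h.cont l).continuousAt (ho.mem_nhds ?_)
        show ‖(0 : ℂ)‖ ^ k l < δ
        rw [norm_zero, zero_pow (by omega)]
        exact hδ0
      have hpos : 0 < ‖W l 0‖ := norm_pos_iff.2 hl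
      have h3 : ∀ᶠ s in 𝓝 (0 : ℂ), ‖W l 0‖ / 2 < ‖W l s‖ :=
        hcont.norm.eventually (lt_mem_nhds (by linarith))
      obtain ⟨r', hr', h4⟩ := Metric.eventually_nhds_iff_ball.1 h3
      filter_upwards [ev_le (show 0 < r' ^ k l by positivity),
        ev_le (show 0 < ‖W l 0‖ / 2 by positivity)] with η h5 h6
      refine ⟨fun _ s hs => ?_, fun h7 => absurd h7 hl⟩
      refine h6.trans (h4 s ?_).le
      rw [mem_ball_zero_iff]
      exact lt_of_pow_lt_pow_left₀ (k l) hr'.le (hs.trans_le h5)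
  obtain ⟨η, ⟨⟨hη1, hηδ⟩, hη2⟩, hη0⟩ :=
    ((e1.and (ev_le hδ0)).and (ev_le one_pos) |>.and self_mem_nhdsWithin).exists
  have hη0' : 0 < η := hη0
  obtain ⟨ε1, hε1, hne⟩ := box_near b hη0'
  obtain ⟨ε2, hε2, hop⟩ := box_open b hη0'
  refine ⟨min ε1 ε2, lt_min hε1 hε2, fun l hl t ht hct => ?_, fun φ hφ hs => ?_⟩
  · -- far from the point
    by_contra hlt
    rw [not_le] at hlt
    have hcn := hσ l hl
    have ht0 : 0 < ‖σ l t‖ := by
      have := hcn.low t ht
      linarith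
    have hsU := ball_Up (h.one_k l) hδ ⟨hcn.mem t ht, norm_pos_iff.1 ht0⟩
    have h1 := hne _ (h.mem_K1 hb hρ hδ l hsU) (hlt.trans_le (min_le_left _ _))
    have h2 : ‖σ l t‖ ^ k l < η := by
      have := mem_ball_zero_iff.1 h1.1
      rwa [norm_pow] at this
    have h3 := ((hη1 l).2 hl).2
    have h4 := lt_of_pow_lt_pow_left₀ (k l) (by positivity) (h2.trans_le h3)
    have := hcn.low t ht
    linarith
  · have hsub : tsupport φ ⊆ b.Θ '' (ball (0 : ℂ) δ ×ˢ ball (0 : ℂ) 1) :=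
      (hs.trans (ball_subset_ball (min_le_right _ _))).trans
        (hop.trans (image_mono (prod_mono (ball_subset_ball hηδ) (ball_subset_ball hη2))))
    obtain ⟨-, hTb⟩ := T_branches hρ hM hT h hδ hR hφ hsub
    rw [hTb]
    refine Finset.sum_congr rfl fun l _ => ?_
    -- where the density does not vanish
    have hval : ∀ s ∈ Up (k l) δ, brd φ (bm b (k l) (W l)) s ≠ 0 →
        ‖s‖ ^ k l < η ∧ ‖W l s‖ < η := by
      intro s hsU h1
      have h2 : φ (bm b (k l) (W l) s) ≠ 0 := by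
        intro h3
        apply h1
        rw [brd, h3]
        simp
      have h3 := hs (subset_tsupport φ h2)
      have h4 := hne _ (h.mem_K1 hb hρ hδ l hsU)
        ((mem_ball.1 h3).trans_le (min_le_left _ _))
      refine ⟨?_, mem_ball_zero_iff.1 h4.2⟩
      have := mem_ball_zero_iff.1 h4.1
      rwa [norm_pow] at this
    have hn0 : ∀ᵐ s ∂volume.restrict {s : ℂ | ‖s‖ ^ k l < δ}, s ≠ 0 :=
      ae_restrict_of_ae (by rw [ae_iff]; simp)
    have hms : MeasurableSet {s : ℂ | ‖s‖ ^ k l < δ} :=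
      (isOpen_lt (by fun_prop) continuous_const).measurableSet
    by_cases hl : W l 0 = 0
    · rw [if_pos hl]
      congr 1
      have hcn := hσ l hl
      have hcc : ball (0 : ℂ) c ⊆ ball 0 r := ball_subset_ball hcr.le
      have hinter : ball (0 : ℂ) c ∩ ball 0 r = ball 0 c := inter_eq_left.2 hcc
      have hAsub : σ l '' ball 0 c ⊆ {s : ℂ | ‖s‖ ^ k l < δ} := by
        rintro _ ⟨t, ht, rfl⟩
        by_cases h0 : σ l t = 0
        · rw [h0]
          show ‖(0 : ℂ)‖ ^ k l < δ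
          rw [norm_zero, zero_pow (by have := h.one_k l; omega)]
          exact hδ0
        · exact (ball_Up (h.one_k l) hδ ⟨hcn.mem t (hcc ht), h0⟩).1
      have h1 : ∫ s in {s : ℂ | ‖s‖ ^ k l < δ}, brd φ (bm b (k l) (W l)) s =
          ∫ s in σ l '' ball 0 c, brd φ (bm b (k l) (W l)) s := by
        refine setIntegral_eq_of_subset_of_forall_sdiff_eq_zero hms hAsub fun s hsd => ?_
        by_contra h2
        have hs0 : s ≠ 0 := by
          rintro rfl
          exact hsd.2 ⟨0, mem_ball_self hc, hcn.zero⟩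
        have h3 := (hval s ⟨hsd.1, hs0⟩ h2).1
        have h4 := ((hη1 l).2 hl).1 s h3
        rw [hinter] at h4
        exact hsd.2 h4
      rw [h1, integral_image_eq_integral_abs_det_fderiv_smul volume measurableSet_ball
        (fun t ht => ((hcn.c1.contDiffAt (isOpen_ball.mem_nhds (hcc ht))).differentiableAt
          (by simp)).hasFDerivAt.hasFDerivWithinAt) (hcn.inj.mono hcc)]
      refine integral_congr_ae ?_
      have hn1 : ∀ᵐ s ∂volume.restrict (ball (0 : ℂ) c), s ≠ 0 :=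
        ae_restrict_of_ae (by rw [ae_iff]; simp)
      filter_upwards [hn1, ae_restrict_mem measurableSet_ball] with t ht0 ht
      have htr := hcc ht
      have hst0 : σ l t ≠ 0 := by
        intro h2
        have h3 := hcn.low t htr
        rw [h2, norm_zero] at h3
        have := norm_pos_iff.2 ht0
        linarith
      have hsU := ball_Up (h.one_k l) hδ ⟨hcn.mem t htr, hst0⟩
      have hd1 : HasFDerivAt (fun t => bm b (k l) (W l) (σ l t))
          ((fderiv ℝ (bm b (k l) (W l)) (σ l t)).comp (fderiv ℝ (σ l) t)) t :=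
        HasFDerivAt.comp (g := bm b (k l) (W l)) t
          ((((h.bm_smooth hb hρ hδ l).contDiffAt ((Up_open _ _).mem_nhds hsU)).differentiableAt
            (by simp)).hasFDerivAt)
          (((hcn.c1.contDiffAt (isOpen_ball.mem_nhds htr)).differentiableAt
            (by simp)).hasFDerivAt)
      simp only [smul_eq_mul]
      rw [brd, brd, hd1.fderiv, abs_of_pos (hcn.det t htr)]
      simp only [ContinuousLinearMap.comp_apply]
      rw [form_det (hφ.alt _)]
    · rw [if_neg hl, integral_eq_zero_of_ae, mul_zero]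
      filter_upwards [hn0, ae_restrict_mem hms] with s hs0 hsδ
      by_contra h1
      obtain ⟨h2, h3⟩ := hval s ⟨hsδ, hs0⟩ h1
      exact absurd ((hη1 l).1 hl s h2) (not_le.2 h3)

end

end Vale.Agent.P247.H620
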