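import Vale.Agent.P247.H620.LPui

/-!
# P247, LSX: the current as a sum of branches
-/

open scoped ContDiff Topology
open Set MeasureTheory Filter Metric

noncomputable section

namespace Vale.Agent.P247.H620

open Vale.Agent.P247.H74 Vale.Agent.P247.H574

/-- the branch `s ↦ Θ (s ^ k, W s)` -/
def bm {D : Data} (b : Box D) (k : ℕ) (W : ℂ → ℂ) (s : ℂ) : R4 := b.Θ (s ^ k, W s)

/-- the density of a two-form on a parametrised surface -/
def brd (φ : R4 → F2) (u : ℂ → R4) (s : ℂ) : ℝ :=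
  φ (u s) (fderiv ℝ u s 1) (fderiv ℝ u s Complex.I)

/-- the punctured disc -/
def Up (k : ℕ) (δ : ℝ) : Set ℂ := {s | ‖s‖ ^ k < δ} \ {0}

theorem Up_open (k : ℕ) (δ : ℝ) : IsOpen (Up k δ) :=
  (isOpen_lt (by fun_prop) continuous_const).sdiff isClosed_singleton

section

variable {D : Data} {S : ICur D} {b : Box D} {ρ : ℝ} {N : ℕ} {Y P : ℂ → Fin N → ℂ}
  {R : Measure (ℂ × ℂ)} {δ : ℝ} {L : ℕ} {k μ : Fin L → ℕ} {W : Fin L → ℂ → ℂ}

theorem CF.anti {φ : R4 → F2} (h : CF φ) (x u v : R4) : φ x u v = - φ x v u := by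
  have h1 := h.alt x (u + v)
  simp only [map_add, add_apply] at h1
  rw [h.alt, h.alt] at h1
  linarith

theorem Pui.mem_PD (h : Pui b.m b.A Y δ k μ W) (hb : ∀ z i, ‖Y z i‖ ≤ ρ) (hρ : ρ < 1)
    (hδ : δ ≤ 1) (l : Fin L) {s : ℂ} (hs : s ∈ Up (k l) δ) : (s ^ k l, W l s) ∈ PD 2 := by
  rw [PD, mem_prod, mem_ball_zero_iff, mem_ball_zero_iff, norm_pow]
  have h1 : ‖s‖ ^ k l < δ := hs.1
  have h2 := h.W_le hb l hs.2 hs.1
  exact ⟨by linarith, by linarith⟩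

theorem Pui.bm_smooth (h : Pui b.m b.A Y δ k μ W) (hb : ∀ z i, ‖Y z i‖ ≤ ρ) (hρ : ρ < 1)
    (hδ : δ ≤ 1) (l : Fin L) : ContDiffOn ℝ ∞ (bm b (k l) (W l)) (Up (k l) δ) := by
  refine b.smooth.comp (ContDiffOn.prodMk ?_ (h.smooth l)) fun s hs => h.mem_PD hb hρ hδ l hs
  exact (contDiff_id.pow _).contDiffOn

/-- the derivative of a branch -/
theorem Pui.bm_fderiv (h : Pui b.m b.A Y δ k μ W) (hb : ∀ z i, ‖Y z i‖ ≤ ρ) (hρ : ρ < 1)
    (hδ : δ ≤ 1) (l : Fin L) {s : ℂ} (hs : s ∈ Up (k l) δ) {p q : ℂ}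
    (hp : p = d1 (W l) s * (k l * s ^ (k l - 1))⁻¹)
    (hq : q = b.m (s ^ k l, W l s) * p + b.A (s ^ k l, W l s)) (v : ℂ) :
    fderiv ℝ (bm b (k l) (W l)) s v = fderiv ℝ b.Θ (s ^ k l, W l s)
      (k l * s ^ (k l - 1) * v, p * (k l * s ^ (k l - 1) * v) +
        q * starRingEnd ℂ (k l * s ^ (k l - 1) * v)) := by
  have hs0 : s ≠ 0 := hs.2
  have hk := h.one_k l
  have hD : (k l : ℂ) * s ^ (k l - 1) ≠ 0 :=
    mul_ne_zero (Nat.cast_ne_zero.2 (by omega)) (pow_ne_zero _ hs0)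
  have ho : IsOpen (PD 2) := isOpen_ball.prod isOpen_ball
  have hmem := h.mem_PD hb hρ hδ l hs
  have h1 : DifferentiableAt ℝ b.Θ (s ^ k l, W l s) :=
    (b.smooth.contDiffAt (ho.mem_nhds hmem)).differentiableAt (by simp)
  have h2 : DifferentiableAt ℝ (W l) s :=
    ((h.smooth l).contDiffAt ((Up_open _ _).mem_nhds hs)).differentiableAt (by simp)
  have h3 : HasFDerivAt (fun s => (s ^ k l, W l s)) ((dpow (k l) s).prod (fderiv ℝ (W l) s)) s :=
    (pow_hasFDerivAt (k l) s).prodMk h2.hasFDerivAt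
  have h4 : HasFDerivAt (bm b (k l) (W l)) _ s := h1.hasFDerivAt.comp s h3
  rw [h4.fderiv]
  simp only [ContinuousLinearMap.comp_apply, ContinuousLinearMap.prod_apply, dpow_apply]
  congr 2
  rw [rl_decomp (fderiv ℝ (W l) s) v]
  have h5 := h.eq l s hs0 hs.1
  have h6 : (1 / 2 : ℂ) * (fderiv ℝ (W l) s 1 + Complex.I * fderiv ℝ (W l) s Complex.I)
      = dbar (W l) s := by rw [dbar, smul_eq_mul, smul_eq_mul]
  have h7 : (1 / 2 : ℂ) * (fderiv ℝ (W l) s 1 - Complex.I * fderiv ℝ (W l) s Complex.I)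
      = d1 (W l) s := rfl
  have h8 : d1 (W l) s = p * (k l * s ^ (k l - 1)) := by
    rw [hp, inv_mul_cancel_right₀ hD]
  have h9 : dbar (W l) s = q * starRingEnd ℂ (k l * s ^ (k l - 1)) := by
    rw [h5, h8, hq, div_pow]
    simp only [map_mul, map_pow, map_natCast]
    field_simp
  rw [h6, h7, h8, h9]
  simp only [map_mul]
  ring

theorem tan_comb {G : ℂ × ℂ →L[ℝ] R4} (p q w : ℂ) :
    G (w, p * w + q * starRingEnd ℂ w) = w.re • G (1, p + q) + w.im • G (Complex.I, Complex.I * (p - q)) := by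
  rw [← map_smul, ← map_smul, ← map_add]
  congr 1
  have e2 : starRingEnd ℂ w = (w.re : ℂ) - w.im * Complex.I := by
    apply Complex.ext <;> simp
  ext1
  · simp
  · simp only [Prod.smul_mk, Prod.mk_add_mk, Complex.real_smul]
    rw [e2]
    conv_lhs => rw [← Complex.re_add_im w]
    simp only [Complex.add_re, Complex.ofReal_re, Complex.mul_re, Complex.I_re, mul_zero,
      Complex.ofReal_im, Complex.I_im, mul_one, sub_self, add_zero, Complex.add_im, Complex.mul_im,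
      zero_add]
    ring

/-- the density in the parameter `s` -/
theorem Pui.brd_eq (h : Pui b.m b.A Y δ k μ W) (hb : ∀ z i, ‖Y z i‖ ≤ ρ) (hρ : ρ < 1)
    (hδ : δ ≤ 1) (l : Fin L) {s : ℂ} (hs : s ∈ Up (k l) δ) {φ : R4 → F2} (hφ : CF φ) {p : ℂ}
    (hp : p = d1 (W l) s * (k l * s ^ (k l - 1))⁻¹) :
    brd φ (bm b (k l) (W l)) s = ‖(k l : ℂ) * s ^ (k l - 1)‖ ^ 2 *
      φ (b.Θ (s ^ k l, W l s)) (tan1 b (s ^ k l) (W l s) p) (tan2 b (s ^ k l) (W l s) p) := by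
  have h1 := h.bm_fderiv hb hρ hδ l hs hp rfl
  set E := (k l : ℂ) * s ^ (k l - 1) with hE
  rw [brd, h1, h1, mul_one, tan_comb, tan_comb]
  simp only [bm, tan1, tan2]
  set X := fderiv ℝ b.Θ (s ^ k l, W l s)
    (1, p + (b.m (s ^ k l, W l s) * p + b.A (s ^ k l, W l s)))
  set X' := fderiv ℝ b.Θ (s ^ k l, W l s)
    (Complex.I, Complex.I * (p - (b.m (s ^ k l, W l s) * p + b.A (s ^ k l, W l s))))
  have e1 : (E * Complex.I).re = -E.im := by simp
  have e2 : (E * Complex.I).im = E.re := by simp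
  rw [e1, e2]
  simp only [map_add, map_smul, add_apply, smul_apply, smul_eq_mul]
  rw [hφ.alt, hφ.alt, CF.anti hφ _ X' X, ← Complex.normSq_eq_norm_sq, Complex.normSq_apply]
  ring

theorem tr_zero (x : R4) : tr 0 x = x := by
  funext i; simp [tr]

theorem not_mem_of_far {φ : R4 → F2} {r : ℝ} (hr : r ≤ 1)
    (hs : tsupport φ ⊆ b.Θ '' (ball (0 : ℂ) r ×ˢ ball (0 : ℂ) 1)) {p : ℂ × ℂ} (hp : p ∈ PD 2)
    (h : p ∉ ball (0 : ℂ) r ×ˢ ball (0 : ℂ) 1) : φ (b.Θ p) = 0 := by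
  by_contra hc
  obtain ⟨q, hq, he⟩ := hs (subset_tsupport φ hc)
  have hq2 : q ∈ PD 2 := by
    have h1 := hq.1
    have h2 := hq.2
    rw [mem_ball_zero_iff] at h1 h2
    rw [PD, mem_prod, mem_ball_zero_iff, mem_ball_zero_iff]
    exact ⟨by linarith, by linarith⟩
  have h1 := (b.inj q hq2 p hp 0 (by rw [tr_zero]; exact he)).1
  rw [h1] at hq
  exact h hq

/-- the density `H` -/
def Hd (b : Box D) (φ : R4 → F2) (k : ℕ) (W : ℂ → ℂ) (s : ℂ) : ℝ :=
  (‖(k : ℂ) * s ^ (k - 1)‖ ^ 2)⁻¹ * brd φ (bm b k W) s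

theorem Pui.Hd_eq (h : Pui b.m b.A Y δ k μ W) (hb : ∀ z i, ‖Y z i‖ ≤ ρ) (hρ : ρ < 1)
    (hδ : δ ≤ 1) (l : Fin L) {s : ℂ} (hs : s ∈ Up (k l) δ) {φ : R4 → F2} (hφ : CF φ) {p : ℂ}
    (hp : p = d1 (W l) s * (k l * s ^ (k l - 1))⁻¹) :
    Hd b φ (k l) (W l) s =
      φ (b.Θ (s ^ k l, W l s)) (tan1 b (s ^ k l) (W l s) p) (tan2 b (s ^ k l) (W l s) p) := by
  have hs0 : s ≠ 0 := hs.2
  have hk := h.one_k l
  have hD : (k l : ℂ) * s ^ (k l - 1) ≠ 0 :=
    mul_ne_zero (Nat.cast_ne_zero.2 (by omega)) (pow_ne_zero _ hs0)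
  rw [Hd, h.brd_eq hb hρ hδ l hs hφ hp, inv_mul_cancel_left₀]
  exact pow_ne_zero _ (norm_ne_zero_iff.2 hD)

theorem root_mem (h : Pui b.m b.A Y δ k μ W) (l : Fin L) (j : ℕ) {z : ℂ} (hz : z ∈ ball (0 : ℂ) δ)
    (h0 : z ≠ 0) : (om (k l) j * rt (k l) z) ^ k l = z ∧ om (k l) j * rt (k l) z ∈ Up (k l) δ := by
  have hk := h.one_k l
  have h1 : (om (k l) j * rt (k l) z) ^ k l = z := by
    rw [mul_pow, om_pow hk, one_mul, rt_pow hk]
  refine ⟨h1, ?_, mul_ne_zero (om_ne _ _) (rt_ne hk h0)⟩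
  show ‖om (k l) j * rt (k l) z‖ ^ k l < δ
  rw [← norm_pow, h1]
  exact mem_ball_zero_iff.1 hz

theorem tan_bound (b : Box D) : ∃ C : ℝ, 0 ≤ C ∧ ∀ z y p : ℂ, ‖z‖ ≤ 1 → ‖y‖ ≤ 1 →
      ‖tan1 b z y p‖ ≤ C * (1 + ‖p‖) ∧ ‖tan2 b z y p‖ ≤ C * (1 + ‖p‖) := by
  have ho : IsOpen (PD 2) := isOpen_ball.prod isOpen_ball
  have hK : IsCompact (closedBall (0 : ℂ) 1 ×ˢ closedBall (0 : ℂ) 1) :=
    (isCompact_closedBall _ _).prod (isCompact_closedBall _ _)
  have hKs : closedBall (0 : ℂ) 1 ×ˢ closedBall (0 : ℂ) 1 ⊆ PD 2 :=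
    prod_mono (closedBall_subset_ball (by norm_num)) (closedBall_subset_ball (by norm_num))
  have hc1 : ContinuousOn (fderiv ℝ b.Θ) (PD 2) :=
    (b.smooth.of_le (by simp) : ContDiffOn ℝ 1 b.Θ (PD 2)).continuousOn_fderiv_of_isOpen ho le_rfl
  obtain ⟨C1, hC1⟩ := hK.exists_bound_of_continuousOn (hc1.mono hKs)
  obtain ⟨C2, hC2⟩ := hK.exists_bound_of_continuousOn (b.A_smooth.continuousOn.mono hKs)
  have h00 : ((0 : ℂ), (0 : ℂ)) ∈ closedBall (0 : ℂ) 1 ×ˢ closedBall (0 : ℂ) 1 := by simp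
  have p1 : 0 ≤ C1 := (norm_nonneg _).trans (hC1 _ h00)
  have p2 : 0 ≤ C2 := (norm_nonneg _).trans (hC2 _ h00)
  refine ⟨C1 * (2 + C2), by positivity, fun z y p hz hy => ?_⟩
  have hm : (z, y) ∈ closedBall (0 : ℂ) 1 ×ˢ closedBall (0 : ℂ) 1 := by
    rw [mem_prod, mem_closedBall_zero_iff, mem_closedBall_zero_iff]
    exact ⟨hz, hy⟩
  have q1 := hC1 _ hm
  have q2 := hC2 _ hm
  have q4 := (b.m_lt _ (hKs hm)).le
  have np := norm_nonneg p
  have hq : ‖b.m (z, y) * p + b.A (z, y)‖ ≤ ‖p‖ + C2 := by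
    refine (norm_add_le _ _).trans ?_
    rw [norm_mul]
    have : ‖b.m (z, y)‖ * ‖p‖ ≤ 1 * ‖p‖ := mul_le_mul_of_nonneg_right q4 np
    linarith
  have hcp : 0 ≤ C2 * ‖p‖ := mul_nonneg p2 np
  constructor
  · refine ((fderiv ℝ b.Θ (z, y)).le_opNorm _).trans ?_
    rw [mul_assoc]
    refine mul_le_mul q1 ?_ (norm_nonneg _) p1
    rw [Prod.norm_def, max_le_iff]
    constructor
    · simp only [norm_one]; linarith
    · refine (norm_add_le _ _).trans ?_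
      linarith
  · refine ((fderiv ℝ b.Θ (z, y)).le_opNorm _).trans ?_
    rw [mul_assoc]
    refine mul_le_mul q1 ?_ (norm_nonneg _) p1
    rw [Prod.norm_def, max_le_iff]
    constructor
    · simp only [Complex.norm_I]; linarith
    · simp only [norm_mul, Complex.norm_I, one_mul]
      refine (norm_sub_le _ _).trans ?_
      linarith

theorem CF.bdd {φ : R4 → F2} (hφ : CF φ) : ∃ C : ℝ, 0 ≤ C ∧ ∀ x, ‖φ x‖ ≤ C := by
  have hc : Continuous fun x => ‖φ x‖ := (continuous_norm (E := F2)).comp hφ.cont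
  have hs : IsCompact (tsupport φ) := hφ.supp
  obtain ⟨C, hC⟩ := hs.exists_bound_of_continuousOn hc.continuousOn
  refine ⟨max C 0, le_max_right _ _, fun x => ?_⟩
  by_cases hx : x ∈ tsupport φ
  · exact ((Real.le_norm_self _).trans (hC x hx)).trans (le_max_left _ _)
  · rw [image_eq_zero_of_notMem_tsupport hx]
    exact (le_of_eq (norm_zero (E := F2))).trans (le_max_right _ _)

theorem CF.app_le {B : F2} {C a b : ℝ} {u v : R4} (hB : ‖B‖ ≤ C) (hC : 0 ≤ C)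
    (hu : ‖u‖ ≤ a) (hv : ‖v‖ ≤ b) : |B u v| ≤ C * a * b := by
  have h1 : ‖B u v‖ ≤ ‖B u‖ * ‖v‖ := (B u).le_opNorm v
  have h2 : ‖B u‖ ≤ ‖B‖ * ‖u‖ := B.le_opNorm u
  rw [← Real.norm_eq_abs]
  have ha : 0 ≤ a := (norm_nonneg _).trans hu
  calc ‖B u v‖ ≤ (‖B‖ * ‖u‖) * ‖v‖ := h1.trans (mul_le_mul_of_nonneg_right h2 (norm_nonneg _))
    _ ≤ C * a * b := mul_le_mul (mul_le_mul hB hu (norm_nonneg _) hC) hv (norm_nonneg _)
        (mul_nonneg hC ha)

theorem bound_term {φ : R4 → F2} (hφ : CF φ) (b : Box D) : ∃ C : ℝ, 0 ≤ C ∧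
    ∀ z y p : ℂ, ‖z‖ ≤ 1 → ‖y‖ ≤ 1 →
      |φ (b.Θ (z, y)) (tan1 b z y p) (tan2 b z y p)| ≤ C * (1 + ‖p‖ ^ 2) := by
  obtain ⟨C1, p1, hC1⟩ := tan_bound b
  obtain ⟨C3, p3, hC3⟩ := CF.bdd hφ
  refine ⟨C3 * C1 * C1 * 2, by positivity, fun z y p hz hy => ?_⟩
  obtain ⟨t1, t2⟩ := hC1 z y p hz hy
  refine (CF.app_le (hC3 (b.Θ (z, y))) p3 t1 t2).trans ?_
  have np := norm_nonneg p
  have h6 : (1 + ‖p‖) * (1 + ‖p‖) ≤ 2 * (1 + ‖p‖ ^ 2) := by nlinarith [sq_nonneg (‖p‖ - 1)]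
  have h7 : 0 ≤ C3 * C1 * C1 := by positivity
  calc C3 * (C1 * (1 + ‖p‖)) * (C1 * (1 + ‖p‖))
      = C3 * C1 * C1 * ((1 + ‖p‖) * (1 + ‖p‖)) := by ring
    _ ≤ C3 * C1 * C1 * (2 * (1 + ‖p‖ ^ 2)) := mul_le_mul_of_nonneg_left h6 h7
    _ = _ := by ring

theorem T_branches (hρ : ρ < 1) (hM : MG2 N b.m b.A ρ Y P R)
    (hT : ∀ φ, CF φ → tsupport φ ⊆ b.Θ '' (ball (0 : ℂ) 1 ×ˢ ball (0 : ℂ) 1) →
      S.T φ = (∫ z in ball (0 : ℂ) 1,
        ∑ i, φ (b.Θ (z, Y z i)) (tan1 b z (Y z i) (P z i)) (tan2 b z (Y z i) (P z i))) +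
        ∫ p, φ (b.Θ p) (fderiv ℝ b.Θ p (0, 1)) (fderiv ℝ b.Θ p (0, Complex.I)) ∂(R))
    (h : Pui b.m b.A Y δ k μ W) (hδ : δ ≤ 1) (hR : R (ball (0 : ℂ) δ ×ˢ univ) = 0)
    {φ : R4 → F2} (hφ : CF φ) (hs : tsupport φ ⊆ b.Θ '' (ball (0 : ℂ) δ ×ˢ ball (0 : ℂ) 1)) :
    (∀ l, IntegrableOn (brd φ (bm b (k l) (W l))) {s | ‖s‖ ^ k l < δ}) ∧
    S.T φ = ∑ l, (μ l : ℝ) * ∫ s in {s | ‖s‖ ^ k l < δ}, brd φ (bm b (k l) (W l)) s := by
  classical
  have hb := hM.bdd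
  have hYPD : ∀ z ∈ ball (0 : ℂ) 1, ∀ i, (z, Y z i) ∈ PD 2 := by
    intro z hz i
    have h1 := hb z i
    rw [mem_ball_zero_iff] at hz
    rw [PD, mem_prod, mem_ball_zero_iff, mem_ball_zero_iff]
    exact ⟨by linarith, by linarith⟩
  set T0 : ℂ → Fin N → ℝ := fun z i =>
    φ (b.Θ (z, Y z i)) (tan1 b z (Y z i) (P z i)) (tan2 b z (Y z i) (P z i)) with hT0
  -- the vertical part
  have hR0 : ∫ p, φ (b.Θ p) (fderiv ℝ b.Θ p (0, 1)) (fderiv ℝ b.Θ p (0, Complex.I)) ∂(R) = 0 := by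
    refine integral_eq_zero_of_ae ?_
    have h1 : ∀ᵐ p ∂(R), p ∉ ball (0 : ℂ) δ ×ˢ (univ : Set ℂ) := compl_mem_ae_iff.2 hR
    filter_upwards [h1, hM.Rsupp] with p hp1 hp2
    have h3 : φ (b.Θ p) = 0 := by
      refine not_mem_of_far hδ hs ?_ fun h => hp1 ⟨h.1, mem_univ _⟩
      rw [PD, mem_prod, mem_ball_zero_iff, mem_ball_zero_iff]
      exact ⟨by linarith [hp2.1], by linarith [hp2.2]⟩
    simp [h3]
  -- restriction to the small disc
  have hsm : ∫ z in ball (0 : ℂ) 1, ∑ i, T0 z i = ∫ z in ball (0 : ℂ) δ, ∑ i, T0 z i := by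
    refine setIntegral_eq_of_subset_of_forall_sdiff_eq_zero measurableSet_ball
      (ball_subset_ball hδ) fun z hz => ?_
    refine Finset.sum_eq_zero fun i _ => ?_
    have h3 : φ (b.Θ (z, Y z i)) = 0 :=
      not_mem_of_far hδ hs (hYPD z hz.1 i) fun h => hz.2 h.1
    simp [hT0, h3]
  have hall := h.ae_all
  have hPe := h.P_eq hM.toMG hδ
  have hsub1 : ball (0 : ℂ) δ ⊆ ball 0 1 := ball_subset_ball hδ
  -- the value at a root
  have hval : ∀ᵐ z ∂volume.restrict (ball (0 : ℂ) δ), ∀ l s, s ^ k l = z → ∀ i, Y z i = W l s →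
      T0 z i = Hd b φ (k l) (W l) s := by
    filter_upwards [hall, hPe, ae_restrict_mem measurableSet_ball] with z hz1 hz2 hzb l s hls i hi
    have hs0 : s ≠ 0 := by
      rintro rfl
      rw [zero_pow (by have := h.one_k l; omega)] at hls
      exact hz1.1 hls.symm
    have hsU : s ∈ Up (k l) δ := by
      refine ⟨?_, hs0⟩
      show ‖s‖ ^ k l < δ
      rw [← norm_pow, hls]; exact mem_ball_zero_iff.1 hzb
    rw [h.Hd_eq hb hρ hδ l hsU hφ rfl, hT0]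
    simp only
    rw [hz2 l s hls i hi, hi, hls]
  have hsum : ∀ᵐ z ∂volume.restrict (ball (0 : ℂ) δ), ∑ i, T0 z i =
      ∑ l, (μ l : ℝ) * ∑ j ∈ Finset.range (k l), Hd b φ (k l) (W l) (om (k l) j * rt (k l) z) := by
    filter_upwards [hall, hval, h.sum, ae_restrict_mem measurableSet_ball] with z hz1 hz2 hz3 hzb
    have h1 := hz3 (fun l => rt (k l) z) (fun l => rt_pow (h.one_k l) z)
      (fun y => if hy : ∃ i, Y z i = y then T0 z hy.choose else 0)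
    have h2 : ∀ i, (if hy : ∃ i', Y z i' = Y z i then T0 z hy.choose else 0) = T0 z i := by
      intro i
      have hy : ∃ i', Y z i' = Y z i := ⟨i, rfl⟩
      rw [dif_pos hy]
      have h3 := hy.choose_spec
      simp only [hT0]
      rw [hM.same z _ _ h3, h3]
    simp only [h2] at h1
    rw [h1]
    refine Finset.sum_congr rfl fun l _ => ?_
    congr 1
    refine Finset.sum_congr rfl fun j _ => ?_
    have h4 := (root_mem h l j hzb hz1.1).1
    have h5 := hz1.2.2 l _ h4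
    rw [dif_pos h5]
    exact hz2 l _ h4 _ h5.choose_spec
  -- integrability
  have hint : ∀ l, ∀ j < k l,
      IntegrableOn (fun z => Hd b φ (k l) (W l) (om (k l) j * rt (k l) z)) (ball 0 δ) := by
    intro l j _
    obtain ⟨C, hC0, hC⟩ := bound_term hφ b
    have i1 : IntegrableOn (fun z => C * (1 + ∑ i, ‖P z i‖ ^ 2)) (ball 0 δ) := by
      have j1 := hM.energy.mono_set hsub1
      have j2 : IntegrableOn (fun _ : ℂ => (1 : ℝ)) (ball 0 δ) :=
        integrableOn_const measure_ball_lt_top.ne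
      exact (j2.add j1).const_mul C
    refine i1.mono' ?_ ?_
    · -- measurability
      have hc : ContinuousOn (Hd b φ (k l) (W l)) (Up (k l) δ) := by
        have h1 := h.bm_smooth hb hρ hδ l
        have h2 : ContinuousOn (fderiv ℝ (bm b (k l) (W l))) (Up (k l) δ) :=
          (h1.of_le (by simp) : ContDiffOn ℝ 1 _ _).continuousOn_fderiv_of_isOpen
            (Up_open _ _) le_rfl
        have h3 : ContinuousOn (fun s => φ (bm b (k l) (W l) s)) (Up (k l) δ) :=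
          hφ.cont.comp_continuousOn h1.continuousOn
        have h4 : ContinuousOn (brd φ (bm b (k l) (W l))) (Up (k l) δ) :=
          (h3.clm_apply (h2.clm_apply continuousOn_const)).clm_apply
            (h2.clm_apply continuousOn_const)
        refine ContinuousOn.mul (ContinuousOn.inv₀ (by fun_prop) fun s hs => ?_) h4
        have hs0 : s ≠ 0 := hs.2
        have hk := h.one_k l
        have hD : (k l : ℂ) * s ^ (k l - 1) ≠ 0 :=
          mul_ne_zero (Nat.cast_ne_zero.2 (by omega)) (pow_ne_zero _ hs0)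
        exact pow_ne_zero _ (norm_ne_zero_iff.2 hD)
      have hm : Measurable ((Up (k l) δ).piecewise (Hd b φ (k l) (W l)) 0) :=
        hc.measurable_piecewise continuousOn_const (Up_open _ _).measurableSet
      have hm2 : Measurable fun z => (Up (k l) δ).piecewise (Hd b φ (k l) (W l)) 0
          (om (k l) j * rt (k l) z) := hm.comp ((rt_measurable _).const_mul _)
      refine hm2.aestronglyMeasurable.congr ?_
      filter_upwards [hall, ae_restrict_mem measurableSet_ball] with z hz1 hzb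
      exact piecewise_eq_of_mem _ _ _ (root_mem h l j hzb hz1.1).2
    · filter_upwards [hall, hval, ae_restrict_mem measurableSet_ball] with z hz1 hz2 hzb
      have h4 := (root_mem h l j hzb hz1.1).1
      obtain ⟨i, hi⟩ := hz1.2.2 l _ h4
      rw [← hz2 l _ h4 i hi, Real.norm_eq_abs]
      have hz' : ‖z‖ ≤ 1 := by
        have := mem_ball_zero_iff.1 (hsub1 hzb); exact this.le
      refine (hC z (Y z i) (P z i) hz' ((hb z i).trans hρ.le)).trans ?_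
      refine mul_le_mul_of_nonneg_left ?_ hC0
      have := Finset.single_le_sum (f := fun i => ‖P z i‖ ^ 2) (fun j _ => by positivity)
        (Finset.mem_univ i)
      linarith
  have hfib := fun l => fibre_integral (h.one_k l) δ (Hd b φ (k l) (W l)) (hint l)
  have hcong : ∀ l, (fun s => ‖(k l : ℂ) * s ^ (k l - 1)‖ ^ 2 * Hd b φ (k l) (W l) s)
      =ᵐ[volume.restrict {s | ‖s‖ ^ k l < δ}] brd φ (bm b (k l) (W l)) := by
    intro l
    have h0 : ∀ᵐ s ∂volume.restrict {s : ℂ | ‖s‖ ^ k l < δ}, s ≠ 0 :=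
      ae_restrict_of_ae (by rw [ae_iff]; simp)
    filter_upwards [h0] with s hs0
    have hk := h.one_k l
    have hD : (k l : ℂ) * s ^ (k l - 1) ≠ 0 :=
      mul_ne_zero (Nat.cast_ne_zero.2 (by omega)) (pow_ne_zero _ hs0)
    rw [Hd, mul_inv_cancel_left₀]
    exact pow_ne_zero _ (norm_ne_zero_iff.2 hD)
  refine ⟨fun l => (hfib l).1.congr (hcong l), ?_⟩
  rw [hT φ hφ (hs.trans (image_mono (prod_mono hsub1 le_rfl))), hR0, add_zero]
  show ∫ z in ball (0 : ℂ) 1, ∑ i, T0 z i = _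
  rw [hsm, integral_congr_ae hsum, integral_finsetSum]
  · refine Finset.sum_congr rfl fun l _ => ?_
    rw [integral_const_mul, (hfib l).2, integral_congr_ae (hcong l)]
  · intro l _
    refine Integrable.const_mul ?_ _
    exact integrable_finsetSum _ fun j hj => hint l j (Finset.mem_range.1 hj)

end

end Vale.Agent.P247.H620
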