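import Vale.Agent.P247.H574.Sta2

/-!
# P247, LSX: the density `P` of a multigraph is the derivative of a smooth separated sheet
-/

open scoped ContDiff Topology
open Set MeasureTheory Filter Metric

noncomputable section

namespace Vale.Agent.P247.H620

open Vale.Agent.P247.H74 Vale.Agent.P247.H574

/-- `∂` of a function of one complex variable -/
def d1 (V : ℂ → ℂ) (z : ℂ) : ℂ :=
  (1 / 2 : ℂ) * (fderiv ℝ V z 1 - Complex.I * fderiv ℝ V z Complex.I)

section test

variable {V : ℂ → ℂ} {z₀ : ℂ} {r r' : ℝ} (ψ : ℂ → ℝ) (χ : ContDiffBump (0 : ℂ))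

/-- the test function -/
def tf (V : ℂ → ℂ) (ψ : ℂ → ℝ) (χ : ContDiffBump (0 : ℂ)) (p : ℂ × ℂ) : ℂ :=
  (ψ p.1 : ℂ) * ((p.2 - V p.1) * (χ (p.2 - V p.1) : ℂ))

variable {ψ χ}

theorem tf_off {p : ℂ × ℂ} (hp : p.1 ∉ tsupport ψ) : tf V ψ χ =ᶠ[𝓝 p] 0 := by
  have h1 : ∀ᶠ q : ℂ × ℂ in 𝓝 p, q.1 ∉ tsupport ψ :=
    continuous_fst.continuousAt.eventually ((isClosed_tsupport ψ).isOpen_compl.mem_nhds hp)
  filter_upwards [h1] with q hq
  simp [tf, image_eq_zero_of_notMem_tsupport hq]

theorem tf_far {p : ℂ × ℂ} (hV : ContinuousAt V p.1) (hp : χ.rOut < ‖p.2 - V p.1‖) :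
    tf V ψ χ =ᶠ[𝓝 p] 0 := by
  have h1 : ContinuousAt (fun q : ℂ × ℂ => ‖q.2 - V q.1‖) p :=
    (continuous_snd.continuousAt.sub (hV.comp continuous_fst.continuousAt)).norm
  filter_upwards [h1.eventually (lt_mem_nhds hp)] with q hq
  have : χ (q.2 - V q.1) = 0 := by
    apply χ.zero_of_le_dist
    rw [dist_zero_right]; exact hq.le
  simp [tf, this]

theorem tf_near {p : ℂ × ℂ} (hV : ContinuousAt V p.1) (hp : p.2 = V p.1) :
    tf V ψ χ =ᶠ[𝓝 p] fun q => (ψ q.1 : ℂ) * (q.2 - V q.1) := by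
  have h1 : ContinuousAt (fun q : ℂ × ℂ => ‖q.2 - V q.1‖) p :=
    (continuous_snd.continuousAt.sub (hV.comp continuous_fst.continuousAt)).norm
  have h2 : ‖p.2 - V p.1‖ < χ.rIn := by rw [hp, sub_self, norm_zero]; exact χ.rIn_pos
  filter_upwards [h1.eventually (gt_mem_nhds h2)] with q hq
  have : χ (q.2 - V q.1) = 1 := by
    apply χ.one_of_mem_closedBall
    rw [mem_closedBall_zero_iff]; exact hq.le
  simp [tf, this]

theorem tf_smooth (hr : r ≤ r') (hV : ContDiffOn ℝ ∞ V (ball z₀ r')) (hψ : ContDiff ℝ ∞ ψ)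
    (hs : tsupport ψ ⊆ ball z₀ r) : ContDiff ℝ ∞ (tf V ψ χ) := by
  rw [contDiff_iff_contDiffAt]
  intro p
  by_cases hp : p.1 ∈ tsupport ψ
  · have h1 : ContDiffAt ℝ ∞ V p.1 :=
      hV.contDiffAt (isOpen_ball.mem_nhds (ball_subset_ball hr (hs hp)))
    have h2 : ContDiffAt ℝ ∞ (fun q : ℂ × ℂ => q.2 - V q.1) p :=
      contDiffAt_snd.sub (h1.comp p contDiffAt_fst)
    have h3 : ContDiffAt ℝ ∞ (fun q : ℂ × ℂ => (ψ q.1 : ℂ)) p :=
      (Complex.ofRealCLM.contDiff.comp (hψ.comp contDiff_fst)).contDiffAt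
    have h4 : ContDiffAt ℝ ∞ (fun q : ℂ × ℂ => (χ (q.2 - V q.1) : ℂ)) p :=
      (Complex.ofRealCLM.contDiff.comp χ.contDiff).contDiffAt.comp p h2
    exact h3.mul (h2.mul h4)
  · exact contDiffAt_const.congr_of_eventuallyEq (tf_off hp)

theorem tf_supp (hr : r ≤ r') (hV : ContDiffOn ℝ ∞ V (ball z₀ r'))
    (hc : HasCompactSupport ψ) (hs : tsupport ψ ⊆ ball z₀ r) :
    HasCompactSupport (tf V ψ χ) ∧ tsupport (tf V ψ χ) ⊆ ball z₀ r ×ˢ univ := by
  have hcV : ContinuousOn V (tsupport ψ) :=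
    hV.continuousOn.mono (hs.trans (ball_subset_ball hr))
  obtain ⟨C, hC⟩ := hc.isCompact.exists_bound_of_continuousOn hcV
  have hK : IsCompact (tsupport ψ ×ˢ closedBall (0 : ℂ) (C + χ.rOut)) :=
    hc.isCompact.prod (isCompact_closedBall _ _)
  have h0 : ∀ p, p ∉ tsupport ψ ×ˢ closedBall (0 : ℂ) (C + χ.rOut) → tf V ψ χ p = 0 := by
    intro p hp
    by_cases h1 : p.1 ∈ tsupport ψ
    · have h2 : p.2 ∉ closedBall (0 : ℂ) (C + χ.rOut) := fun h => hp ⟨h1, h⟩
      rw [mem_closedBall_zero_iff, not_le] at h2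
      have h3 : χ.rOut < ‖p.2 - V p.1‖ := by
        have := norm_sub_norm_le p.2 (V p.1)
        have := hC _ h1
        linarith
      have : χ (p.2 - V p.1) = 0 := by
        apply χ.zero_of_le_dist
        rw [dist_zero_right]; exact h3.le
      simp [tf, this]
    · simp [tf, image_eq_zero_of_notMem_tsupport h1]
  refine ⟨HasCompactSupport.intro hK h0, ?_⟩
  refine (closure_minimal (fun p hp => ?_) hK.isClosed).trans (prod_mono hs (subset_univ _))
  by_contra h
  exact hp (h0 p h)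

theorem tf_fderiv {z : ℂ} (hV : DifferentiableAt ℝ V z) (hψ : ContDiff ℝ ∞ ψ) (v w : ℂ) :
    fderiv ℝ (tf V ψ χ) (z, V z) (v, w) = (ψ z : ℂ) * (w - fderiv ℝ V z v) := by
  rw [(tf_near (p := (z, V z)) hV.continuousAt rfl).fderiv_eq]
  have h1 : HasFDerivAt (fun q : ℂ × ℂ => q.2 - V q.1)
      (ContinuousLinearMap.snd ℝ ℂ ℂ - (fderiv ℝ V z).comp (ContinuousLinearMap.fst ℝ ℂ ℂ))
      (z, V z) :=
    hasFDerivAt_snd.sub (hV.hasFDerivAt.comp (z, V z) hasFDerivAt_fst)
  have h2 : HasFDerivAt (fun q : ℂ × ℂ => (ψ q.1 : ℂ))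
      (Complex.ofRealCLM.comp ((fderiv ℝ ψ z).comp (ContinuousLinearMap.fst ℝ ℂ ℂ)))
      (z, V z) :=
    Complex.ofRealCLM.hasFDerivAt.comp (z, V z)
      (((hψ.differentiable (by simp)) z).hasFDerivAt.comp (z, V z) hasFDerivAt_fst)
  have h3 := (h2.fun_mul h1).fderiv
  rw [h3]
  simp

end test

/-- On a smooth sheet which is separated from the other ones, `P` is the derivative. -/
theorem tan_id {N : ℕ} {m A : ℂ × ℂ → ℂ} {ρ : ℝ} {Y P : ℂ → Fin N → ℂ} (h : MG N m A ρ Y P)
    {V : ℂ → ℂ} {z₀ : ℂ} {r r' c : ℝ} (hr : r < r') (hc : 0 < c) (hsub : ball z₀ r ⊆ ball 0 1)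
    (hV : ContDiffOn ℝ ∞ V (ball z₀ r'))
    (hsep : ∀ᵐ z ∂volume.restrict (ball z₀ r), ∀ i, Y z i = V z ∨ c ≤ ‖Y z i - V z‖) :
    ∀ᵐ z ∂volume.restrict (ball z₀ r), ∀ i, Y z i = V z → P z i = d1 V z := by
  classical
  have hVc : ContinuousOn V (ball z₀ r) := hV.continuousOn.mono (ball_subset_ball hr.le)
  have hV1 : ContDiffOn ℝ 1 V (ball z₀ r') := hV.of_le (by simp)
  have hdc' : ContinuousOn (d1 V) (ball z₀ r') := by
    have h1 : ContinuousOn (fderiv ℝ V) (ball z₀ r') :=
      hV1.continuousOn_fderiv_of_isOpen isOpen_ball le_rfl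
    have h2 : ContinuousOn (fun z => fderiv ℝ V z 1) (ball z₀ r') :=
      h1.clm_apply continuousOn_const
    have h3 : ContinuousOn (fun z => fderiv ℝ V z Complex.I) (ball z₀ r') :=
      h1.clm_apply continuousOn_const
    exact continuousOn_const.mul (h2.sub (continuousOn_const.mul h3))
  have hdc : ContinuousOn (d1 V) (ball z₀ r) := hdc'.mono (ball_subset_ball hr.le)
  obtain ⟨C, hC⟩ := (isCompact_closedBall z₀ r).exists_bound_of_continuousOn
    (hdc'.mono (closedBall_subset_ball hr))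
  -- measurable versions
  set V₁ : ℂ → ℂ := (ball z₀ r).piecewise V 0 with hV₁
  set e₁ : ℂ → ℂ := (ball z₀ r).piecewise (d1 V) 0 with he₁
  have mV : Measurable V₁ := hVc.measurable_piecewise continuousOn_const measurableSet_ball
  have me : Measurable e₁ := hdc.measurable_piecewise continuousOn_const measurableSet_ball
  set F : ℂ → ℂ := fun z => ∑ i, if Y z i = V₁ z then P z i - e₁ z else 0 with hF
  have mF : Measurable F := by
    refine Finset.measurable_sum _ fun i _ => ?_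
    exact Measurable.ite (measurableSet_eq_fun (h.measY i) mV) ((h.measP i).sub me)
      measurable_const
  have hsum : ∀ i z, ‖P z i‖ ^ 2 ≤ ∑ j, ‖P z j‖ ^ 2 := fun i z =>
    Finset.single_le_sum (f := fun j => ‖P z j‖ ^ 2) (fun j _ => by positivity)
      (Finset.mem_univ i)
  have iF : IntegrableOn F (ball z₀ r) := by
    have i1 : IntegrableOn (fun z => (N : ℝ) * (1 + ∑ i, ‖P z i‖ ^ 2 + |C|)) (ball z₀ r) := by
      have j1 := h.energy.mono_set hsub
      have j2 : ∀ a : ℝ, IntegrableOn (fun _ : ℂ => a) (ball z₀ r) := fun a =>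
        integrableOn_const measure_ball_lt_top.ne
      exact (((j2 1).add j1).add (j2 |C|)).const_mul _
    refine i1.mono' mF.aestronglyMeasurable ?_
    filter_upwards [ae_restrict_mem measurableSet_ball] with z hz
    refine (norm_sum_le _ _).trans ?_
    have : ∀ i ∈ (Finset.univ : Finset (Fin N)),
        ‖(if Y z i = V₁ z then P z i - e₁ z else 0 : ℂ)‖ ≤ 1 + ∑ i, ‖P z i‖ ^ 2 + |C| := by
      intro i _
      have h2 := hsum i z
      have h3 : ‖e₁ z‖ ≤ |C| := by
        rw [he₁, piecewise_eq_of_mem _ _ _ hz]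
        exact (hC z (ball_subset_closedBall hz)).trans (le_abs_self _)
      have h4 : 0 ≤ ∑ i, ‖P z i‖ ^ 2 := Finset.sum_nonneg fun i _ => by positivity
      split_ifs
      · refine (norm_sub_le _ _).trans ?_
        nlinarith [sq_nonneg (‖P z i‖ - 1), norm_nonneg (P z i)]
      · rw [norm_zero]; positivity
    refine (Finset.sum_le_sum this).trans (le_of_eq ?_)
    rw [Finset.sum_const, Finset.card_univ, Fintype.card_fin, nsmul_eq_mul]
  -- the chain rule
  have key : ∀ᵐ z ∂(volume : Measure ℂ), z ∈ ball z₀ r → F z = 0 := by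
    refine isOpen_ball.ae_eq_zero_of_integral_contDiff_smul_eq_zero iF.locallyIntegrableOn
      fun ψ hψ hψc hψs => ?_
    let χ : ContDiffBump (0 : ℂ) := ⟨c / 4, c / 2, by linarith, by linarith⟩
    obtain ⟨s1, s2⟩ := tf_supp (χ := χ) hr.le hV hψc hψs
    have h5 := h.chain (tf V ψ χ) (tf_smooth hr.le hV hψ hψs) s1
      (s2.trans (prod_mono hsub (subset_univ _)))
    rw [← h5]
    have e1 : ∫ x, ψ x • F x = ∫ x in ball (0 : ℂ) 1, ψ x • F x := by
      rw [setIntegral_eq_integral_of_forall_compl_eq_zero]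
      intro x hx
      have : x ∉ tsupport ψ := fun h => hx (hsub (hψs h))
      rw [image_eq_zero_of_notMem_tsupport this, zero_smul]
    rw [e1]
    refine setIntegral_congr_ae measurableSet_ball ?_
    rw [ae_restrict_iff' measurableSet_ball] at hsep
    filter_upwards [hsep] with z hz _
    by_cases hzb : z ∈ ball z₀ r
    · have hVd : DifferentiableAt ℝ V z :=
        (hV1.contDiffAt (isOpen_ball.mem_nhds (ball_subset_ball hr.le hzb))).differentiableAt
          (by simp)
      rw [hF, Finset.smul_sum]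
      refine Finset.sum_congr rfl fun i _ => ?_
      have e2 : V₁ z = V z := piecewise_eq_of_mem _ _ _ hzb
      have e3 : e₁ z = d1 V z := piecewise_eq_of_mem _ _ _ hzb
      rw [e2, e3]
      rcases hz hzb i with h6 | h6
      · rw [if_pos h6, h6]
        simp only [dC, dbC, Prod.smul_mk, smul_eq_mul, mul_one, mul_zero]
        rw [tf_fderiv hVd hψ, tf_fderiv hVd hψ, tf_fderiv hVd hψ, tf_fderiv hVd hψ, d1,
          Complex.real_smul]
        simp only [map_zero, sub_zero, zero_sub]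
        linear_combination ((ψ z : ℂ) / 2 * P z i
          - (ψ z : ℂ) / 2 * starRingEnd ℂ (m (z, V z) * P z i + A (z, V z))) * Complex.I_mul_I
      · have h7 : Y z i ≠ V z := by
          intro h8
          rw [h8, sub_self, norm_zero] at h6
          linarith
        have h8 : χ.rOut < ‖Y z i - V z‖ := by
          show c / 2 < _
          linarith
        have h9 := (tf_far (V := V) (ψ := ψ) (χ := χ) (p := (z, Y z i))
          hVd.continuousAt h8).fderiv_eq (𝕜 := ℝ)
        rw [if_neg h7, smul_zero]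
        simp only [dC, dbC, h9]
        simp
    · have h8 : z ∉ tsupport ψ := fun h => hzb (hψs h)
      rw [image_eq_zero_of_notMem_tsupport h8, zero_smul]
      symm
      refine Finset.sum_eq_zero fun i _ => ?_
      have h9 := (tf_off (V := V) (ψ := ψ) (χ := χ) (p := (z, Y z i)) h8).fderiv_eq (𝕜 := ℝ)
      simp only [dC, dbC, h9]
      simp
  rw [ae_restrict_iff' measurableSet_ball]
  filter_upwards [key] with z hz hzb i hi
  have h1 := hz hzb
  have e2 : V₁ z = V z := piecewise_eq_of_mem _ _ _ hzb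
  have e3 : e₁ z = d1 V z := piecewise_eq_of_mem _ _ _ hzb
  have h2 : F z = ∑ j, if Y z j = V z then P z i - d1 V z else 0 := by
    rw [hF]
    refine Finset.sum_congr rfl fun j _ => ?_
    rw [e2, e3]
    split_ifs with h3
    · rw [h.same z j i (h3.trans hi.symm)]
    · rfl
  rw [h2, ← Finset.sum_filter, Finset.sum_const, nsmul_eq_mul, mul_eq_zero] at h1
  rcases h1 with h1 | h1
  · exfalso
    rw [Nat.cast_eq_zero, Finset.card_eq_zero] at h1
    have : i ∈ Finset.univ.filter fun j => Y z j = V z := by simp [hi]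
    rw [h1] at this
    simp at this
  · exact sub_eq_zero.1 h1

end Vale.Agent.P247.H620
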