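import Mathlib

/-!
# Polar coordinates around a point and du Bois-Reymond in the radius
-/

open scoped ContDiff Topology Real
open Set MeasureTheory Filter Metric

noncomputable section

namespace Vale.Agent.P247.H620

variable {E : Type*} [NormedAddCommGroup E] [NormedSpace ℝ E]

/-- the point with polar coordinates `(r, θ)` around `x` -/
def pt (x : ℂ) (r θ : ℝ) : ℂ := x + r * (Real.cos θ + Real.sin θ * Complex.I)

theorem pt_eq (x : ℂ) (p : ℝ × ℝ) : pt x p.1 p.2 = x + Complex.polarCoord.symm p := by
  rw [Complex.polarCoord_symm_apply]; rfl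

theorem norm_pt (x : ℂ) {r : ℝ} (hr : 0 ≤ r) (θ : ℝ) : ‖pt x r θ - x‖ = r := by
  have := Complex.norm_polarCoord_symm (r, θ)
  rw [show pt x r θ = x + Complex.polarCoord.symm (r, θ) from pt_eq x (r, θ), add_sub_cancel_left,
    this, abs_of_nonneg hr]

/-- the measure on the strip -/
theorem strip_eq : (volume : Measure (ℝ × ℝ)).restrict polarCoord.target =
    ((volume : Measure ℝ).restrict (Ioi 0)).prod ((volume : Measure ℝ).restrict (Ioo (-π) π)) := by
  rw [Measure.prod_restrict]; rfl

theorem polar_integrable {Φ : ℂ → E} (hΦ : Integrable Φ) :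
    Integrable (fun p : ℝ × ℝ => p.1 • Φ (Complex.polarCoord.symm p))
      (((volume : Measure ℝ).restrict (Ioi 0)).prod
        ((volume : Measure ℝ).restrict (Ioo (-π) π))) := by
  rw [← strip_eq]
  have h1 : Integrable (fun p : ℝ × ℝ => Φ (Complex.measurableEquivRealProd.symm p)) :=
    (Complex.volume_preserving_equiv_real_prod.symm).integrable_comp_of_integrable hΦ
  have h2 := (integrableOn_image_iff_integrableOn_abs_det_fderiv_smul (μ := volume)
    (polarCoord.open_target.measurableSet)
    (fun p _ => (hasFDerivAt_polarCoord_symm p).hasFDerivWithinAt)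
    polarCoord.symm.injOn (fun p : ℝ × ℝ => Φ (Complex.measurableEquivRealProd.symm p))).1
    h1.integrableOn
  refine (integrableOn_congr_fun (fun p hp => ?_) polarCoord.open_target.measurableSet).1 h2
  rw [det_fderivPolarCoordSymm, Complex.measurableEquivRealProd_symm_polarCoord_symm_apply,
    abs_of_pos hp.1]

theorem polar_integral {Φ : ℂ → E} (hΦ : Integrable Φ) :
    ∫ z, Φ z = ∫ r in Ioi (0 : ℝ), r • ∫ θ in Ioo (-π) π, Φ (Complex.polarCoord.symm (r, θ)) := by
  rw [← Complex.integral_comp_polarCoord_symm, strip_eq, integral_prod _ (polar_integrable hΦ)]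
  refine integral_congr_ae (Eventually.of_forall fun r => ?_)
  exact integral_smul r _

/-- integration over a ball in polar coordinates -/
theorem polar_ball {x : ℂ} {d : ℝ} {Φ : ℂ → E} (hΦ : IntegrableOn Φ (ball x d)) :
    ∫ z in ball x d, Φ z = ∫ r in Ioo 0 d, r • ∫ θ in Ioo (-π) π, Φ (pt x r θ) := by
  have h1 : Integrable fun z => (ball x d).indicator Φ (x + z) :=
    ((integrable_indicator_iff measurableSet_ball).2 hΦ).comp_add_left x
  have h2 := polar_integral h1
  rw [integral_add_left_eq_self (fun z => (ball x d).indicator Φ z) x,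
    integral_indicator measurableSet_ball] at h2
  rw [h2]
  have h3 : ∀ r ∈ Ioi (0 : ℝ), r • ∫ θ in Ioo (-π) π,
      (ball x d).indicator Φ (x + Complex.polarCoord.symm (r, θ)) =
      (Iio d).indicator (fun r => r • ∫ θ in Ioo (-π) π, Φ (pt x r θ)) r := by
    intro r hr
    have e : ∀ θ, x + Complex.polarCoord.symm (r, θ) = pt x r θ := fun θ => (pt_eq x (r, θ)).symm
    simp only [e]
    by_cases hd : r < d
    · rw [indicator_of_mem (show r ∈ Iio d from hd)]
      congr 1
      refine setIntegral_congr_fun measurableSet_Ioo fun θ _ => ?_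
      refine indicator_of_mem ?_ _
      rw [mem_ball_iff_norm, norm_pt x (le_of_lt hr)]
      exact hd
    · rw [indicator_of_notMem (show r ∉ Iio d from hd)]
      rw [setIntegral_eq_zero_of_forall_eq_zero, smul_zero]
      intro θ _
      refine indicator_of_notMem ?_ _
      rw [mem_ball_iff_norm, norm_pt x (le_of_lt hr)]
      exact hd
  rw [setIntegral_congr_fun measurableSet_Ioi h3, setIntegral_indicator measurableSet_Iio]
  rfl

theorem ae_circle_integrable {x : ℂ} {d : ℝ} {Φ : ℂ → E} (hΦ : IntegrableOn Φ (ball x d)) :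
    ∀ᵐ r ∂volume.restrict (Ioo 0 d), IntegrableOn (fun θ => Φ (pt x r θ)) (Ioo (-π) π) := by
  have h1 : Integrable fun z => (ball x d).indicator Φ (x + z) :=
    ((integrable_indicator_iff measurableSet_ball).2 hΦ).comp_add_left x
  have h2 := (polar_integrable h1).prod_right_ae
  have h3 := ae_mono (Measure.restrict_mono (fun r hr => hr.1 : Ioo 0 d ⊆ Ioi 0) le_rfl) h2
  filter_upwards [h3, ae_restrict_mem measurableSet_Ioo] with r hr hm
  have h4 : Integrable (fun θ => (ball x d).indicator Φ (x + Complex.polarCoord.symm (r, θ)))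
      (volume.restrict (Ioo (-π) π)) := by
    have := hr.smul (r⁻¹ : ℝ)
    refine this.congr (Eventually.of_forall fun θ => ?_)
    show r⁻¹ • (r • (ball x d).indicator Φ (x + Complex.polarCoord.symm (r, θ))) = _
    rw [inv_smul_smul₀ hm.1.ne']
  refine h4.congr (Eventually.of_forall fun θ => ?_)
  have e : x + Complex.polarCoord.symm (r, θ) = pt x r θ := (pt_eq x (r, θ)).symm
  simp only [e]
  refine indicator_of_mem ?_ _
  rw [mem_ball_iff_norm, norm_pt x hm.1.le]
  exact hm.2

/-- du Bois-Reymond in the radius -/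
theorem ae_circle [CompleteSpace E] {x : ℂ} {d : ℝ} {Φ : ℂ → E} (hΦ : IntegrableOn Φ (ball x d))
    (h : ∀ η : ℝ → ℝ, ContDiff ℝ ∞ η → HasCompactSupport η → tsupport η ⊆ Ioo 0 d →
      ∫ z in ball x d, η ‖z - x‖ • Φ z = 0) :
    ∀ᵐ r ∂volume.restrict (Ioo 0 d), ∫ θ in Ioo (-π) π, Φ (pt x r θ) = 0 := by
  set g : ℝ → E := fun r => r • ∫ θ in Ioo (-π) π, Φ (pt x r θ) with hg
  have hgi : IntegrableOn g (Ioo 0 d) := by
    have h1 : Integrable fun z => (ball x d).indicator Φ (x + z) :=
      ((integrable_indicator_iff measurableSet_ball).2 hΦ).comp_add_left x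
    have h2 := (polar_integrable h1).integral_prod_left
    have h3 : IntegrableOn (fun r => ∫ θ in Ioo (-π) π,
      r • (ball x d).indicator Φ (x + Complex.polarCoord.symm (r, θ))) (Ioo 0 d) :=
      IntegrableOn.mono_set h2 (fun r hr => hr.1)
    refine (integrableOn_congr_fun (fun r hr => ?_) measurableSet_Ioo).1 h3
    show _ = r • _
    rw [← integral_smul]
    refine setIntegral_congr_fun measurableSet_Ioo fun θ _ => ?_
    have e : x + Complex.polarCoord.symm (r, θ) = pt x r θ := (pt_eq x (r, θ)).symm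
    show r • _ = r • _
    rw [e, indicator_of_mem]
    rw [mem_ball_iff_norm, norm_pt x hr.1.le]
    exact hr.2
  have hdb : ∀ᵐ r ∂(volume : Measure ℝ), r ∈ Ioo 0 d → g r = 0 := by
    refine isOpen_Ioo.ae_eq_zero_of_integral_contDiff_smul_eq_zero hgi.locallyIntegrableOn ?_
    intro η hη hc hs
    have hηb : ∃ C, ∀ r, ‖η r‖ ≤ C := hη.continuous.bounded_above_of_compact_support hc
    obtain ⟨C, hC⟩ := hηb
    have hi : IntegrableOn (fun z => η ‖z - x‖ • Φ z) (ball x d) := by
      refine Integrable.bdd_smul (φ := fun z => η ‖z - x‖) hΦ C ?_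
        (Eventually.of_forall fun z => hC ‖z - x‖)
      exact (hη.continuous.comp (by fun_prop)).aestronglyMeasurable
    have h1 := polar_ball hi
    rw [h η hη hc hs] at h1
    have h2 : ∀ r ∈ Ioo 0 d, r • ∫ θ in Ioo (-π) π, η ‖pt x r θ - x‖ • Φ (pt x r θ) =
        η r • g r := by
      intro r hr
      simp only [norm_pt x hr.1.le]
      rw [integral_smul, hg]
      exact smul_comm _ _ _
    rw [setIntegral_congr_fun measurableSet_Ioo h2] at h1
    rw [← setIntegral_eq_integral_of_forall_compl_eq_zero (s := Ioo 0 d)]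
    · exact h1.symm
    · intro r hr
      rw [image_eq_zero_of_notMem_tsupport fun h => hr (hs h), zero_smul]
  filter_upwards [ae_restrict_of_ae hdb, ae_restrict_mem measurableSet_Ioo] with r hr hm
  have h1 := hr hm
  rw [hg] at h1
  exact (smul_eq_zero.1 h1).resolve_left hm.1.ne'

end Vale.Agent.P247.H620
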